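import Vale.Agent.P148.R2.F.Defs
import Vale.Agent.P148.R2.H291.Edges
import Vale.Agent.P148.R2.H291.Unif

/-!
# P148: basic facts which hold with high probability
-/

open MeasureTheory Set Metric Topology Filter ProbabilityTheory
open scoped ENNReal NNReal

namespace Vale.Agent.P148.R2.H847

open _root_.P148
open Vale.Agent.P148.R2.F (whp eventually_whp)
open Vale.Agent.P148.R2.H291 (Stab stab_unif net)

universe u

/-- Deterministic properties of all locally finite coloured configurations. -/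
theorem whp_of_poisson {A : ℝ × Set Pt → Prop}
    (h : ∀ (Ω : Type u) [MeasurableSpace Ω] (P : Measure Ω) [IsProbabilityMeasure P]
      (S : Ω → Set Pt) (ε : ℝ), 0 < ε → IsColouredPoisson P S (Real.toNNReal (ε ^ (-2 : ℤ))) →
      ∀ᵐ ω ∂P, A (ε, S ω)) : ∀ᶠ m in whp.{u}, A m := by
  rw [eventually_whp]
  intro Ω _ P _ S hS
  refine tendsto_const_nhds.congr' ?_
  filter_upwards [self_mem_nhdsWithin] with ε hε
  have := h (Ω ε) (P ε) (S ε) ε hε (hS ε hε)
  exact (ae_iff.1 this).symm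

theorem whp_locFin : ∀ᶠ m in whp.{u}, ∀ r : ℝ, (m.2 ∩ ball (0 : ℂ) r ×ˢ univ).Finite :=
  whp_of_poisson fun _ _ _ _ _ _ _ h => ae_of_all _ h.locFin

theorem whp_finite_ball : ∀ᶠ m in whp.{u}, ∀ r : ℝ, (pts m.2 ∩ ball (0 : ℂ) r).Finite := by
  filter_upwards [whp_locFin.{u}] with m hm r
  refine ((hm r).image Prod.fst).subset ?_
  rintro v ⟨⟨q, hq, rfl⟩, hv⟩
  exact ⟨q, ⟨hq, hv, mem_univ _⟩, rfl⟩

/-- Bounds which tend to zero with the mesh. -/
theorem whp_of_bound {A : ℝ × Set Pt → Prop} {g : ℝ → ℝ≥0∞} (hg : Tendsto g (𝓝[>] 0) (𝓝 0))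
    (h : ∀ (Ω : Type u) [MeasurableSpace Ω] (P : Measure Ω) [IsProbabilityMeasure P]
      (S : Ω → Set Pt) (ε : ℝ), 0 < ε → IsColouredPoisson P S (Real.toNNReal (ε ^ (-2 : ℤ))) →
      P {ω | ¬ A (ε, S ω)} ≤ g ε) : ∀ᶠ m in whp.{u}, A m := by
  rw [eventually_whp]
  intro Ω _ P _ S hS
  refine tendsto_of_tendsto_of_tendsto_of_le_of_le' tendsto_const_nhds hg
    (Eventually.of_forall fun ε => bot_le) ?_
  filter_upwards [self_mem_nhdsWithin] with ε hε
  exact h (Ω ε) (P ε) (S ε) ε hε (hS ε hε)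

theorem tendsto_lam : Tendsto (fun ε : ℝ => ((Real.toNNReal (ε ^ (-2 : ℤ)) : ℝ≥0) : ℝ)) (𝓝[>] 0)
    atTop := by
  have h1 : Tendsto (fun ε : ℝ => ε⁻¹ ^ 2) (𝓝[>] 0) atTop :=
    (tendsto_pow_atTop two_ne_zero).comp tendsto_inv_nhdsGT_zero
  refine h1.congr fun ε => ?_
  rw [Real.coe_toNNReal _ (by positivity)]
  rw [zpow_neg, inv_pow]
  rfl

/-- **All the points of a window are stable at a fixed scale**, with high probability. -/
theorem whp_stab (R : ℝ) {s : ℝ} (hs : 0 < s) :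
    ∀ᶠ m in whp.{u}, ∀ z ∈ closedBall (0 : ℂ) R, Stab (pts m.2) z s := by
  set R' := max R 0 with hR'
  refine whp_of_bound (g := fun ε => ENNReal.ofReal ((2 * R' / s + 3) ^ 2 * net.card *
    Real.exp (-(((Real.toNNReal (ε ^ (-2 : ℤ)) : ℝ≥0) : ℝ) * (Real.pi / 1024 * s ^ 2))))) ?_ ?_
  · have hc : 0 < Real.pi / 1024 * s ^ 2 := by positivity
    have h1 := tendsto_lam.atTop_mul_const hc
    have h2 := Real.tendsto_exp_neg_atTop_nhds_zero.comp h1
    have h3 := h2.const_mul ((2 * R' / s + 3) ^ 2 * (net.card : ℝ))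
    rw [mul_zero] at h3
    have h4 := ENNReal.tendsto_ofReal h3
    rw [ENNReal.ofReal_zero] at h4
    exact h4
  · intro Ω _ P _ S ε _ h
    refine (measure_mono ?_).trans (stab_unif h (0 : ℂ) (R := R') (le_max_right _ _) hs)
    intro ω hω
    simp only [mem_ofPred_eq, not_forall] at hω ⊢
    obtain ⟨z, hz, hn⟩ := hω
    exact ⟨z, closedBall_subset_closedBall (le_max_left _ _) hz, hn⟩

/-- The points of the configuration form a net of a window, with high probability. -/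
theorem whp_net (R : ℝ) {r : ℝ} (hr : 0 < r) :
    ∀ᶠ m in whp.{u}, ∀ z ∈ closedBall (0 : ℂ) R, ∃ w ∈ pts m.2, dist z w ≤ r := by
  filter_upwards [whp_stab.{u} R (s := 8 * r) (by positivity)] with m hm z hz
  obtain ⟨w, hw, h⟩ := hm z hz z (mem_closedBall_self (by positivity))
  exact ⟨w, hw, by linarith⟩

end Vale.Agent.P148.R2.H847
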