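import Vale.Agent.P148.R2.H847.Osc
import Vale.Agent.P148.R2.H847.Whp

/-!
# P148, module BV: equicontinuity and boundary values of the observables from one-arm bounds
-/

open MeasureTheory Set Metric Topology Filter ProbabilityTheory
open scoped ENNReal NNReal

namespace Vale.Agent.P148.R2.H847

open _root_.P148
open Vale.Agent.P148.R2.F (whp eventually_whp Dom Conv arc3 ArmStmt BVStmt)
open Vale.Agent.P148.R2.H291 (Stab)
open Vale.Agent.P148.R2.H592 (HullTri Fc vc tail head ConnIn CV Fib fib_cmap nbr vcell cmap nbr_symm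
  cmap_of_mem)
open Vale.Agent.P148.R2.H219 (isBounded_D inter_2 m2_notMem_3)

universe u

/-! ### the outer darts of a domain -/

theorem z3a : ∀ n : ZMod 3, n + 2 * 1 + 2 = n + 1 ∧ n + 2 * 1 + 1 = n ∧ n + 2 * 2 + 2 = n ∧
    n + 2 * 2 + 1 = n + 2 ∧ n + 2 * 2 = n + 1 := by decide

theorem z3b : ∀ n : ZMod 3, n + 1 + 2 = n ∧ n + 1 + 1 = n + 2 ∧ n + 2 + 2 = n + 1 ∧
    n + 2 + 1 = n := by decide

section dom

variable (D : Dom)

theorem fibD : Fib D.X (cmap D.X D.O) := fib_cmap D.disj D.conn D.ne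

theorem vc_mem_X (t : Fc D.X D.b) (m : ZMod 3) : vc t m ∈ D.X := by
  have h2 := (D.hull.nbr_th (t, m + 2)).1
  have e1 : tail ((t, m + 2) : Fc D.X D.b × ZMod 3) = vc t m := by
    show vc t (m + 2 + 1) = _
    rw [H592.z3_21]
  rwa [e1] at h2

/-- The corners of the outer darts. -/
theorem oj_corners (j : ZMod 3) : head (D.oj j) ∈ D.O j ∧ ∃ i k, i ≠ j ∧ k ≠ j ∧ k ≠ i ∧
    tail (D.oj j) ∈ D.O i ∧ vc (D.oj j).1 (D.oj j).2 ∈ D.O k := by
  classical
  have h0 : vc D.o.1 (D.o.2 + 2) ∈ D.O 0 := D.head_o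
  have hj : j = 0 ∨ j = 1 ∨ j = 2 := by revert j; decide
  by_cases hc : tail D.o ∈ D.O 1
  · have h1 : vc D.o.1 (D.o.2 + 1) ∈ D.O 1 := hc
    have h2 : vc D.o.1 D.o.2 ∈ D.O 2 := by
      rcases D.tail_o with h | h
      · exact h.2
      · exact absurd hc (Set.disjoint_right.1 (D.disj (by decide : (1 : ZMod 3) ≠ 2)) h.1)
    have e : D.oj j = (D.o.1, D.o.2 + 2 * j) := by
      unfold Dom.oj
      rw [if_pos hc]
    rw [e]
    show vc D.o.1 (D.o.2 + 2 * j + 2) ∈ D.O j ∧ ∃ i k, i ≠ j ∧ k ≠ j ∧ k ≠ i ∧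
      vc D.o.1 (D.o.2 + 2 * j + 1) ∈ D.O i ∧ vc D.o.1 (D.o.2 + 2 * j) ∈ D.O k
    generalize D.o.2 = n at *
    rcases hj with rfl | rfl | rfl
    · have a1 : n + 2 * 0 + 2 = n + 2 := by ring
      have a2 : n + 2 * 0 + 1 = n + 1 := by ring
      have a3 : n + 2 * 0 = n := by ring
      rw [a1, a2, a3]
      exact ⟨h0, 1, 2, by decide, by decide, by decide, h1, h2⟩
    · have a1 : n + 2 * 1 + 2 = n + 1 := (z3a n).1
      have a2 : n + 2 * 1 + 1 = n := (z3a n).2.1
      have a3 : n + 2 * 1 = n + 2 := by ring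
      rw [a1, a2, a3]
      exact ⟨h1, 2, 0, by decide, by decide, by decide, h2, h0⟩
    · have a1 : n + 2 * 2 + 2 = n := (z3a n).2.2.1
      have a2 : n + 2 * 2 + 1 = n + 2 := (z3a n).2.2.2.1
      have a3 : n + 2 * 2 = n + 1 := (z3a n).2.2.2.2
      rw [a1, a2, a3]
      exact ⟨h2, 0, 1, by decide, by decide, by decide, h0, h1⟩
  · have h12 := D.tail_o.resolve_left fun h => hc h.1
    have h1 : vc D.o.1 (D.o.2 + 1) ∈ D.O 2 := h12.1
    have h2 : vc D.o.1 D.o.2 ∈ D.O 1 := h12.2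
    have e : D.oj j = (D.o.1, D.o.2 + j) := by
      unfold Dom.oj
      rw [if_neg hc]
    rw [e]
    show vc D.o.1 (D.o.2 + j + 2) ∈ D.O j ∧ ∃ i k, i ≠ j ∧ k ≠ j ∧ k ≠ i ∧
      vc D.o.1 (D.o.2 + j + 1) ∈ D.O i ∧ vc D.o.1 (D.o.2 + j) ∈ D.O k
    generalize D.o.2 = n at *
    rcases hj with rfl | rfl | rfl
    · have a1 : n + 0 + 2 = n + 2 := by ring
      have a2 : n + 0 + 1 = n + 1 := by ring
      have a3 : n + 0 = n := by ring
      rw [a1, a2, a3]
      exact ⟨h0, 2, 1, by decide, by decide, by decide, h1, h2⟩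
    · have a1 : n + 1 + 2 = n := (z3b n).1
      have a2 : n + 1 + 1 = n + 2 := (z3b n).2.1
      rw [a1, a2]
      exact ⟨h2, 0, 2, by decide, by decide, by decide, h0, h1⟩
    · have a1 : n + 2 + 2 = n + 1 := (z3b n).2.2.1
      have a2 : n + 2 + 1 = n := (z3b n).2.2.2
      rw [a1, a2]
      exact ⟨h1, 1, 0, by decide, by decide, by decide, h2, h0⟩

theorem outD (j : ZMod 3) : OutD D.hull (fibD D) (D.oj j) j := by
  obtain ⟨h0, i, k, hij, hkj, hki, hi, hk⟩ := oj_corners D j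
  refine ⟨?_, i, hij, ?_, k, hkj, hki, ?_⟩
  · rw [tgt_TD]; exact cmap_of_mem D.disj h0
  · rw [src_TD]; exact cmap_of_mem D.disj hi
  · rw [apex_TD]; exact cmap_of_mem D.disj hk

theorem free_iff (x : ℂ) : D.Free x ↔ x ∈ Gf D.X D.O := Iff.rfl

end dom

/-! ### geometry of the arcs -/

theorem exists_far (Q : Quad) (p : ℂ) : ∃ k : ZMod 3, p ∉ arc3 Q k := by
  by_contra hc
  push Not at hc
  have h0 : p ∈ Q.arc 0 ∪ Q.arc 1 := hc 0
  have h1 : p ∈ Q.arc 2 := hc 1
  have h2 : p ∈ Q.arc 3 := hc 2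
  have := inter_2 Q h0 h1
  rw [this] at h2
  exact m2_notMem_3 Q h2

theorem isClosed_side (i : Fin 4) : IsClosed (side i) := by
  fin_cases i
  · exact (isClosed_le (continuous_abs.comp Complex.continuous_re) continuous_const).inter
      (isClosed_eq Complex.continuous_im continuous_const)
  · exact (isClosed_eq Complex.continuous_re continuous_const).inter
      (isClosed_le (continuous_abs.comp Complex.continuous_im) continuous_const)
  · exact (isClosed_le (continuous_abs.comp Complex.continuous_re) continuous_const).inter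
      (isClosed_eq Complex.continuous_im continuous_const)
  · exact (isClosed_eq Complex.continuous_re continuous_const).inter
      (isClosed_le (continuous_abs.comp Complex.continuous_im) continuous_const)

theorem isClosed_arc (Q : Quad) (i : Fin 4) : IsClosed (Q.arc i) :=
  Q.H.isClosedMap _ (isClosed_side i)

theorem isClosed_arc3 (Q : Quad) (k : ZMod 3) : IsClosed (arc3 Q k) := by
  have h3 : k = 0 ∨ k = 1 ∨ k = 2 := by revert k; decide
  rcases h3 with rfl | rfl | rfl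
  · exact (isClosed_arc Q 0).union (isClosed_arc Q 1)
  · exact isClosed_arc Q 2
  · exact isClosed_arc Q 3

theorem nonempty_arc3 (Q : Quad) (k : ZMod 3) : (arc3 Q k).Nonempty := by
  have h3 : k = 0 ∨ k = 1 ∨ k = 2 := by revert k; decide
  rcases h3 with rfl | rfl | rfl
  · exact ⟨Q.mark 0, Or.inl (H219.mark_mem_arc Q 0)⟩
  · exact ⟨Q.mark 2, H219.mark_mem_arc Q 2⟩
  · exact ⟨Q.mark 3, H219.mark_mem_arc Q 3⟩

/-! ### local consequences of the convergence of domains -/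

section conv

variable {Q : Quad} {ι : Type} {l : Filter ι} {m : ι → ℝ × Set Pt} {E : ι → Dom}

/-- Free sites stay in a bounded region, are points of the configuration, have small cells, and
their adjacency is the adjacency of the configuration. -/
theorem conv_local (hm : Tendsto m l whp.{u}) (hC : Conv Q l m E) {s : ℝ} (hs : 0 < s) :
    ∀ᶠ i in l, (∀ z, (E i).Free z → z ∈ pts (m i).2) ∧
      (∀ z, (E i).Free z → ∀ y, nbr (E i).X z y → dist z y ≤ s) ∧
      (∀ a, (E i).Free a → ∀ b, (E i).Free b → nbr (E i).X a b → nbr (pts (m i).2) a b) := by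
  obtain ⟨R0, hR0⟩ := (isBounded_D Q).subset_ball (0 : ℂ)
  set s' := min s 1 with hs'
  have hs0 : 0 < s' := lt_min hs one_pos
  have hs1 : s' ≤ 1 := min_le_right _ _
  have hne : Q.D.Nonempty := by
    have h1 := H219.mark_mem_arc Q 0
    have h2 := H219.arc_sub_cl Q 0 h1
    exact closure_nonempty_iff.1 ⟨_, h2⟩
  filter_upwards [hC.outer 1 one_pos, hm.eventually (whp_stab.{u} (R0 + 2) hs0),
    hC.win (R0 + 20), hC.sub, hC.far (R0 + 20)] with i h1 h2 h3 h4 h5
  have hn : ∀ z, (E i).Free z → ‖z‖ < R0 + 2 := by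
    intro z hz
    obtain ⟨y, hy, hzy⟩ := (infDist_lt_iff hne).1 ((h1 z hz).trans_lt (by norm_num : (1 : ℝ) < 2))
    have h6 := mem_ball_zero_iff.1 (hR0 hy)
    have h7 : ‖z‖ ≤ ‖y‖ + dist z y := by
      rw [dist_eq_norm]
      calc ‖z‖ = ‖y + (z - y)‖ := by ring_nf
        _ ≤ ‖y‖ + ‖z - y‖ := norm_add_le _ _
    linarith
  have hst : ∀ z, (E i).Free z → Stab (E i).X z s' := by
    intro z hz
    refine (h2 z (mem_closedBall_zero_iff.2 (hn z hz).le)).congr hs0 ?_
    rintro w ⟨hw, hwz⟩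
    refine h3 ⟨hw, mem_ball_zero_iff.2 ?_⟩
    rw [mem_closedBall, dist_eq_norm] at hwz
    have h7 : ‖w‖ ≤ ‖z‖ + ‖w - z‖ := by
      calc ‖w‖ = ‖z + (w - z)‖ := by ring_nf
        _ ≤ ‖z‖ + ‖w - z‖ := norm_add_le _ _
    have := hn z hz
    linarith
  have hfp : ∀ z, (E i).Free z → z ∈ pts (m i).2 := by
    intro z hz
    rcases h4 hz.1 with h6 | ⟨j, hj⟩
    · exact h6
    · exfalso
      have h7 := h5 j
      rw [hj] at h7
      have := hn z hz
      linarith
  refine ⟨hfp, ?_, ?_⟩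
  · intro z hz y hzy
    have h6 := H291.dist_adj_le (hst z hz) hs0 hzy
    have h7 : s' ≤ s := min_le_left _ _
    linarith
  · rintro a ha b hb ⟨-, -, hab, z0, hz1, hz2⟩
    have key : ∀ c, (E i).Free c → z0 ∈ vcell (E i).X c → z0 ∈ vcell (pts (m i).2) c := by
      intro c hc hz w hw
      have h6 : z0 ∈ closedBall c (s' / 8) := (hst c hc).vcell_subset hs0
        ⟨c, H291.self_mem_vcell _ c, mem_closedBall_self hs0.le⟩ hz
      rw [mem_closedBall, dist_eq_norm] at h6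
      by_cases hwb : w ∈ ball (0 : ℂ) (R0 + 20)
      · exact hz w (h3 ⟨hw, hwb⟩)
      · rw [mem_ball_zero_iff, not_lt] at hwb
        have h7 : ‖z0‖ ≤ ‖c‖ + ‖z0 - c‖ := by
          calc ‖z0‖ = ‖c + (z0 - c)‖ := by ring_nf
            _ ≤ ‖c‖ + ‖z0 - c‖ := norm_add_le _ _
        have h8 : ‖w‖ ≤ ‖z0‖ + ‖z0 - w‖ := by
          calc ‖w‖ = ‖z0 - (z0 - w)‖ := by ring_nf
            _ ≤ ‖z0‖ + ‖z0 - w‖ := norm_sub_le _ _
        have h9 := hn c hc
        rw [dist_eq_norm, dist_eq_norm]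
        linarith
    exact ⟨hfp a ha, hfp b hb, hab, z0, key a ha hz1, key b hb hz2⟩

/-- The common estimate: near `p`, away from the arc `k`. -/
theorem conv_bound (harm : ArmStmt.{u}) (hm : Tendsto m l whp.{u}) (hC : Conv Q l m E) (p : ℂ)
    {η : ℝ} (hη : 0 < η) : ∃ k : ZMod 3, ∃ r > 0, ∀ᶠ i in l,
      ∀ W ⊆ Gf (E i).X (E i).O, (∀ v ∈ W, dist v p ≤ r) →
      (∀ x ∈ Nb (E i).X W, x ∉ (E i).O k) ∧ ∃ P : Set ℂ → Prop,
      (∀ σ : CV (E i).X (E i).O → Bool, (∃ c, FArm (E i).X (Gf (E i).X (E i).O) (colOf σ) c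
        (Nb (E i).X W) ((E i).O k)) → P (blackF σ)) ∧ qpr (Gf (E i).X (E i).O) P ≤ η := by
  obtain ⟨k, hk⟩ := exists_far Q p
  have hρ0 : 0 < infDist p (arc3 Q k) := ((isClosed_arc3 Q k).notMem_iff_infDist_pos
    (nonempty_arc3 Q k)).1 hk
  set ρ0 := infDist p (arc3 Q k) with hρ0'
  obtain ⟨δ1, hδ1, harm'⟩ := harm (ρ0 / 2) (by positivity) (η / 2) (by positivity)
  set r := min (δ1 / 2) (ρ0 / 8) with hr
  have hr0 : 0 < r := lt_min (by positivity) (by positivity)
  have hr1 : r ≤ δ1 / 2 := min_le_left _ _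
  have hr2 : r ≤ ρ0 / 8 := min_le_right _ _
  refine ⟨k, r, hr0, ?_⟩
  filter_upwards [conv_local hm hC hr0, hm.eventually (harm' p), hC.bdry (ρ0 / 4) (by positivity)]
    with i h1 h2 h3 W hW hWp
  obtain ⟨h4, h5, h6⟩ := h1
  have hN : (Gf (E i).X (E i).O).Finite := finite_Gf (E i).hull.fin
  have hO : ∀ y ∈ (E i).O k, ∀ z ∈ Gf (E i).X (E i).O, nbr (E i).X z y → 3 / 4 * ρ0 ≤ dist y p := by
    intro y hy z hz hzy
    have h7 := h3 k y hy z hz (nbr_symm hzy)
    have h8 : infDist p (arc3 Q k) ≤ dist p y + infDist y (arc3 Q k) := by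
      rw [add_comm]
      exact infDist_le_infDist_add_dist
    rw [dist_comm p y, ← hρ0'] at h8
    linarith
  obtain ⟨hA, P, hP1, hP2⟩ := qpr_bound (k := k) hW hr0.le hWp h5 hO (by linarith) hN subset_rfl h6
  refine ⟨hA, P, hP1, hP2.trans ?_⟩
  have h7 := h2 (Gf (E i).X (E i).O) (fun z hz => h4 z hz) hN
  have h8 : qpr (Gf (E i).X (E i).O) (fun W => UArm (pts (m i).2) W (closedBall p (r + r))
      (ball p (3 / 4 * ρ0 - r))ᶜ) ≤ qpr (Gf (E i).X (E i).O) (fun W => UArm (pts (m i).2) W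
      (closedBall p δ1) (ball p (ρ0 / 2))ᶜ) := by
    refine qpr_mono hN fun W' _ h => h.mono (fun _ _ _ _ h => h) subset_rfl ?_ ?_
    · exact closedBall_subset_closedBall (by linarith)
    · rw [compl_subset_compl]
      exact ball_subset_ball (by linarith)
  linarith

/-- **BV**: boundary values and equicontinuity. -/
theorem bv (harm : ArmStmt.{u}) : BVStmt.{u} := by
  intro Q ι l m E hm hC
  refine ⟨?_, ?_⟩
  · intro j p hp η hη
    obtain ⟨k, r, hr, hb⟩ := conv_bound harm hm hC p hη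
    obtain ⟨δ, hδ, hloc⟩ := hC.loc p hp r hr
    refine ⟨min δ r, lt_min hδ hr, ?_⟩
    filter_upwards [hb, hloc] with i h1 h2 q q' hq hq' hqp hq'p
    set W : Set ℂ := {v | (E i).Free v ∧ dist v p < r} with hW
    obtain ⟨hA, P, hP1, hP2⟩ := h1 W (fun v hv => hv.1) (fun v hv => hv.2.le)
    have hch := h2 (tail q) (tail q') hq hq' (hqp.trans_le (min_le_left _ _))
      (hq'p.trans_le (min_le_left _ _))
    have key : ‖(E i).T.HH ((E i).oj j) q - (E i).T.HH ((E i).oj j) q'‖ ≤ η := by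
      refine (HH_sub_le (E i).hull (fibD (E i)) (outD (E i) j) fun σ hmi hne => hP1 σ ?_).trans hP2
      refine farm_of_NK_ne (E i).hull (fibD (E i)) (outD (E i) j) hmi (W := W) (fun v hv => hv.1)
        (x := tail q) (y := tail q') ⟨hq, hqp.trans_le (min_le_right _ _)⟩ ?_ rfl rfl hne hA
      exact Relation.ReflTransGen.mono
        (fun a b h => ⟨h.1, ⟨h.2.1, h.2.2.2.1⟩, ⟨h.2.2.1, h.2.2.2.2⟩⟩) _ _ hch
    calc |(E i).H j q - (E i).H j q'|
        = |((E i).T.HH ((E i).oj j) q - (E i).T.HH ((E i).oj j) q').re| := by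
          rw [Complex.sub_re]; rfl
      _ ≤ ‖(E i).T.HH ((E i).oj j) q - (E i).T.HH ((E i).oj j) q'‖ := Complex.abs_re_le_norm _
      _ ≤ η := key
  · intro j p hp η hη
    obtain ⟨k, r, hr, hb⟩ := conv_bound harm hm hC p hη
    have hpc : p ∈ closure Q.D := by
      have h3 : ∀ j : ZMod 3, j = 0 ∨ j = 1 ∨ j = 2 := by decide
      rcases h3 j with rfl | rfl | rfl
      · rcases hp with hp | hp
        · exact H219.arc_sub_cl Q 0 hp
        · exact H219.arc_sub_cl Q 1 hp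
      · exact H219.arc_sub_cl Q 2 hp
      · exact H219.arc_sub_cl Q 3 hp
    obtain ⟨δ, hδ, hloc⟩ := hC.loc p hpc r hr
    refine ⟨min δ r, lt_min hδ hr, ?_⟩
    have hθ : 0 < min δ r / 2 := half_pos (lt_min hδ hr)
    filter_upwards [hb, hloc, hC.reach j p hp _ hθ] with i h1 h2 h3 q hq hqp
    obtain ⟨u, hu, y, hy, huy, hup, hyp⟩ := h3
    set W : Set ℂ := {v | (E i).Free v ∧ dist v p < r} with hW
    obtain ⟨hA, P, hP1, hP2⟩ := h1 W (fun v hv => hv.1) (fun v hv => hv.2.le)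
    have hyp' : dist y p < min δ r := hyp.trans_lt (half_lt_self (lt_min hδ hr))
    have hch := h2 (tail q) y hq hy (hqp.trans_le (min_le_left _ _))
      (hyp'.trans_le (min_le_left _ _))
    have key : ‖(E i).T.HH ((E i).oj j) q‖ ≤ η := by
      refine (HH_le (E i).hull (fibD (E i)) (outD (E i) j) fun σ hmi hne => hP1 σ ?_).trans hP2
      refine farm_of_NK_ne_zero (E i).hull (fibD (E i)) (outD (E i) j) hmi (W := W)
        (fun v hv => hv.1) (x := tail q) (y := y) ⟨hq, hqp.trans_le (min_le_right _ _)⟩ ?_ hu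
        (nbr_symm huy) rfl hne hA (E i).disj
      exact Relation.ReflTransGen.mono
        (fun a b h => ⟨h.1, ⟨h.2.1, h.2.2.2.1⟩, ⟨h.2.2.1, h.2.2.2.2⟩⟩) _ _ hch
    exact (le_abs_self _).trans ((Complex.abs_re_le_norm _).trans key)

end conv

end Vale.Agent.P148.R2.H847
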