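import Vale.Agent.P148.R2.H847.Qpr
import Vale.Agent.P148.R2.H990.Chain

/-!
# P148, module BV: oscillation and boundary values of the observables, deterministic form
-/

open Set Metric

namespace Vale.Agent.P148.R2.H847

open Vale.Agent.P148.R2.H592 Vale.Agent.P148.R2

/-- There is a path in `W`, for the adjacency `nbr X`, from a point of `A` to a point of `B`. -/
def UArm (X W A B : Set ℂ) : Prop :=
  ∃ x ∈ A, x ∈ W ∧ ∃ z ∈ B, Relation.ReflTransGen (fun a b => nbr X a b ∧ a ∈ W ∧ b ∈ W) x z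

theorem UArm.mono {X Y W W' A A' B B' : Set ℂ} (h : UArm X W A B)
    (hXY : ∀ a ∈ W, ∀ b ∈ W, nbr X a b → nbr Y a b) (hW : W ⊆ W') (hA : A ⊆ A') (hB : B ⊆ B') :
    UArm Y W' A' B' := by
  obtain ⟨x, hx, hxW, z, hz, hxz⟩ := h
  refine ⟨x, hA hx, hW hxW, z, hB hz, ?_⟩
  exact Relation.ReflTransGen.mono
    (fun a b (h : nbr X a b ∧ a ∈ W ∧ b ∈ W) => ⟨hXY a h.2.1 b h.2.2 h.1, hW h.2.1, hW h.2.2⟩) _ _ hxz

section graph

variable {X : Set ℂ}

/-- Every point is in a cell. -/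
theorem exists_cell (hX : X.Finite) (hne : X.Nonempty) (z : ℂ) : ∃ v ∈ X, z ∈ vcell X v := by
  obtain ⟨v, hv, hmin⟩ := Set.exists_min_image X (fun w => dist z w) hX hne
  exact ⟨v, hv, hmin⟩

/-- Chains of neighbours along a connected set. -/
theorem chain_nbr (hX : X.Finite) {K : Set ℂ} (hK : IsPreconnected K) {u w : ℂ} (hu : u ∈ X)
    (hw : w ∈ X) (huK : (vcell X u ∩ K).Nonempty) (hwK : (vcell X w ∩ K).Nonempty) :
    Relation.ReflTransGen (fun a b => nbr X a b ∧ a ∈ {v ∈ X | (vcell X v ∩ K).Nonempty} ∧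
      b ∈ {v ∈ X | (vcell X v ∩ K).Nonempty}) u w := by
  have hcov : K ⊆ ⋃ v ∈ X, H990.vcell X v := by
    intro z _
    obtain ⟨v, hv, hz⟩ := exists_cell hX ⟨u, hu⟩ z
    exact mem_biUnion hv hz
  have h1 := H990.chain_of_conn hK hcov (hX.subset fun v hv => hv.1) hu hw huK hwK
  induction h1 with
  | refl => exact Relation.ReflTransGen.refl
  | tail _ hbc ih =>
    rename_i a c _
    obtain ⟨ha, hc, z, ⟨hz1, hz2⟩, hzK⟩ := hbc
    have haK : (vcell X a ∩ K).Nonempty := ⟨z, hz1, hzK⟩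
    have hcK : (vcell X c ∩ K).Nonempty := ⟨z, hz2, hzK⟩
    have h2 := ih ha haK
    by_cases hac : a = c
    · rw [← hac]; exact h2
    · exact h2.tail ⟨⟨ha, hc, hac, z, hz1, hz2⟩, ⟨ha, haK⟩, ⟨hc, hcK⟩⟩

/-- First exit of a chain from a set. -/
theorem first_exit {R : ℂ → ℂ → Prop} {G : Set ℂ} {u w : ℂ} (h : Relation.ReflTransGen R u w)
    (hu : u ∈ G) (hw : w ∉ G) : ∃ y z, Relation.ReflTransGen (fun a b => R a b ∧ a ∈ G ∧ b ∈ G) u y ∧
      y ∈ G ∧ R y z ∧ z ∉ G ∧ Relation.ReflTransGen R z w := by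
  induction h using Relation.ReflTransGen.head_induction_on with
  | refl => exact absurd hu hw
  | head hab hbw ih =>
    rename_i a b
    by_cases hb : b ∈ G
    · obtain ⟨y, z, h1, h2, h3, h4, h5⟩ := ih hb
      exact ⟨y, z, Relation.ReflTransGen.head ⟨hab, hu, hb⟩ h1, h2, h3, h4, h5⟩
    · exact ⟨a, b, Relation.ReflTransGen.refl, hu, hab, hb, hbw⟩

end graph

variable {X : Set ℂ} {b : ZMod 3 → ℂ} (h : HullTri X b) {O : ZMod 3 → Set ℂ}
  (hf : Fib X (cmap X O))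

/-- A free arm gives an arm of black or of white free points. -/
theorem uarm_of_farm {σ : CV X O → Bool} {c : Bool} {A B B' : Set ℂ}
    (hB : ∀ z ∈ Gf X O, ∀ y ∈ B, nbr X z y → z ∈ B')
    (ha : FArm X (Gf X O) (colOf σ) c A B) :
    UArm X (blackF σ) A B' ∨ UArm X (Gf X O \ blackF σ) A B' := by
  obtain ⟨x, hx, hxG, hxc, z, hxz, y, hy, hzy⟩ := ha
  have hzG : z ∈ Gf X O := by
    rcases Relation.ReflTransGen.cases_tail hxz with h1 | ⟨u, -, h1⟩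
    · rw [h1]; exact hxG
    · exact h1.2.2.1
  have hzB := hB z hzG y hy hzy
  cases c with
  | true =>
    left
    refine ⟨x, hx, ⟨hxG, hxc⟩, z, hzB, ?_⟩
    exact Relation.ReflTransGen.mono (fun a b (h : FStp X (Gf X O) (colOf σ) true a b) =>
      ⟨h.1, ⟨h.2.1, h.2.2.2.1⟩, ⟨h.2.2.1, h.2.2.2.2⟩⟩) _ _ hxz
  | false =>
    right
    have hw : ∀ a ∈ Gf X O, colOf σ a = false → a ∈ Gf X O \ blackF σ := by
      intro a haG hac
      refine ⟨haG, fun hb => ?_⟩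
      have := hb.2
      rw [hac] at this
      exact Bool.false_ne_true this
    refine ⟨x, hx, hw x hxG hxc, z, hzB, ?_⟩
    exact Relation.ReflTransGen.mono (fun a b (h : FStp X (Gf X O) (colOf σ) false a b) =>
      ⟨h.1, hw a h.2.1 h.2.2.2.1, hw b h.2.2.1 h.2.2.2.2⟩) _ _ hxz

theorem finite_Gf (hX : X.Finite) : (Gf X O).Finite := hX.subset fun _ h => h.1

/-- The probability of an arm of either colour. -/
theorem qpr_two {N : Set ℂ} {Q : Set ℂ → Prop} :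
    qpr N (fun W => Q W ∨ Q (N \ W)) ≤ 2 * qpr N Q := by
  refine (qpr_or N Q fun W => Q (N \ W)).trans ?_
  rw [qpr_compl]
  linarith

/-- Transfer of an arm probability to a larger set of points and another adjacency. -/
theorem qpr_arm_le {Y G N A B : Set ℂ} (hN : N.Finite) (hG : G ⊆ N)
    (hXY : ∀ a ∈ G, ∀ b ∈ G, nbr X a b → nbr Y a b) :
    qpr G (fun W => UArm X W A B) ≤ qpr N (fun W => UArm Y W A B) := by
  rw [← qpr_restrict hN hG]
  refine qpr_mono hN fun W _ h => ?_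
  exact h.mono (fun a ha b hb => hXY a ha.2 b hb.2) inter_subset_left subset_rfl subset_rfl

section

variable [Fintype (CV X O)] {o : Fc X b × ZMod 3} {j k : ZMod 3}

omit [Fintype (CV X O)] in
/-- The bound of the probability that `NK` changes, from the deterministic arm statement. -/
theorem qpr_bound {W : Set ℂ} (hWG : W ⊆ Gf X O) {p : ℂ} {δ s ρ : ℝ} (hs0 : 0 ≤ s)
    (hWp : ∀ v ∈ W, dist v p ≤ δ)
    (hs : ∀ z ∈ Gf X O, ∀ y, nbr X z y → dist z y ≤ s) (hO : ∀ y ∈ O k, ∀ z ∈ Gf X O, nbr X z y → ρ ≤ dist y p)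
    (hδ : δ + s < ρ) {Y N : Set ℂ} (hN : N.Finite) (hGN : Gf X O ⊆ N)
    (hXY : ∀ a ∈ Gf X O, ∀ b ∈ Gf X O, nbr X a b → nbr Y a b) :
    (∀ x ∈ Nb X W, x ∉ O k) ∧ ∃ Q : Set ℂ → Prop,
      (∀ σ : CV X O → Bool, (∃ c, FArm X (Gf X O) (colOf σ) c (Nb X W) (O k)) → Q (blackF σ)) ∧
      qpr (Gf X O) Q ≤ 2 * qpr N (fun W => UArm Y W (closedBall p (δ + s)) (ball p (ρ - s))ᶜ) := by
  have hNb : Nb X W ⊆ closedBall p (δ + s) := by
    rintro x (hx | ⟨w, hw, hwx⟩)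
    · rw [mem_closedBall]
      have h1 := hWp x hx
      linarith
    · rw [mem_closedBall]
      have h1 := hWp w hw
      have h2 := hs w (hWG hw) x hwx
      have := dist_triangle x w p
      rw [dist_comm x w] at this
      linarith
  have hk : ∀ x ∈ Nb X W, x ∉ O k := by
    intro x hx hxO
    have h1 := mem_closedBall.1 (hNb hx)
    rcases hx with hx | ⟨w, hw, hwx⟩
    · exact (hWG hx).2 k hxO
    · have h2 := hO x hxO w (hWG hw) hwx
      linarith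
  have hB : ∀ z ∈ Gf X O, ∀ y ∈ O k, nbr X z y → z ∈ (ball p (ρ - s))ᶜ := by
    intro z hz y hy hzy hzb
    rw [mem_ball] at hzb
    have h1 := hO y hy z hz hzy
    have h2 := hs z hz y hzy
    have h3 := dist_triangle y z p
    rw [dist_comm y z] at h3
    linarith
  refine ⟨hk, fun W' => UArm X W' (closedBall p (δ + s)) (ball p (ρ - s))ᶜ ∨
    UArm X (Gf X O \ W') (closedBall p (δ + s)) (ball p (ρ - s))ᶜ, ?_, ?_⟩
  · rintro σ ⟨c, hc⟩
    rcases uarm_of_farm hB hc with h1 | h1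
    · exact Or.inl (h1.mono (fun a _ b _ h => h) subset_rfl hNb subset_rfl)
    · exact Or.inr (h1.mono (fun a _ b _ h => h) subset_rfl hNb subset_rfl)
  · refine (qpr_two (Q := fun W' => UArm X W' (closedBall p (δ + s)) (ball p (ρ - s))ᶜ)).trans ?_
    have := qpr_arm_le (A := closedBall p (δ + s)) (B := (ball p (ρ - s))ᶜ) hN hGN hXY
    linarith

variable {h hf}

/-- **Oscillation of the observable along a connected set of free cells.** -/
theorem osc (ho : OutD h hf o j) {K : Set ℂ} (hK : IsPreconnected K)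
    (hKG : ∀ v ∈ X, (vcell X v ∩ K).Nonempty → v ∈ Gf X O) {p : ℂ} {δ s ρ : ℝ} (hs0 : 0 ≤ s)
    (hKp : ∀ v ∈ X, (vcell X v ∩ K).Nonempty → dist v p ≤ δ)
    (hs : ∀ z ∈ Gf X O, ∀ y, nbr X z y → dist z y ≤ s) (hO : ∀ y ∈ O k, ρ ≤ dist y p)
    (hδ : δ + s < ρ) {q r : Fc X b × ZMod 3} (hq : (vcell X (tail q) ∩ K).Nonempty)
    (hr : (vcell X (tail r) ∩ K).Nonempty) {Y N : Set ℂ} (hN : N.Finite) (hGN : Gf X O ⊆ N)
    (hXY : ∀ a ∈ Gf X O, ∀ b ∈ Gf X O, nbr X a b → nbr Y a b) :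
    ‖(TD h hf).HH o q - (TD h hf).HH o r‖ ≤
      2 * qpr N (fun W => UArm Y W (closedBall p (δ + s)) (ball p (ρ - s))ᶜ) := by
  set W : Set ℂ := {v ∈ X | (vcell X v ∩ K).Nonempty} with hW
  have hWG : W ⊆ Gf X O := fun v hv => hKG v hv.1 hv.2
  obtain ⟨hk, Q, hQ1, hQ2⟩ := qpr_bound (k := k) hWG hs0 (fun v hv => hKp v hv.1 hv.2) hs
    (fun y hy _ _ _ => hO y hy) hδ hN hGN hXY
  refine (HH_sub_le h hf ho fun σ hm hne => hQ1 σ ?_).trans hQ2
  exact farm_of_NK_ne h hf ho hm hWG (x := tail q) (y := tail r) ⟨(h.nbr_th q).1, hq⟩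
    (chain_nbr h.fin hK (h.nbr_th q).1 (h.nbr_th r).1 hq hr) rfl rfl hne hk

/-- **Smallness of the observable `j` near the class `j`.** -/
theorem osc_bd (ho : OutD h hf o j) (hd : Pairwise fun i j => Disjoint (O i) (O j)) {K : Set ℂ}
    (hK : IsPreconnected K)
    (hKG : ∀ v ∈ X, (vcell X v ∩ K).Nonempty → v ∈ Gf X O ∨ v ∈ O j) {p : ℂ} {δ s ρ : ℝ}
    (hs0 : 0 ≤ s) (hKp : ∀ v ∈ X, (vcell X v ∩ K).Nonempty → dist v p ≤ δ)
    (hs : ∀ z ∈ Gf X O, ∀ y, nbr X z y → dist z y ≤ s) (hO : ∀ y ∈ O k, ρ ≤ dist y p)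
    (hδ : δ + s < ρ) {q : Fc X b × ZMod 3} (hqG : tail q ∈ Gf X O)
    (hq : (vcell X (tail q) ∩ K).Nonempty)
    {u : ℂ} (hu : u ∈ O j) (huX : u ∈ X) (huK : (vcell X u ∩ K).Nonempty)
    {Y N : Set ℂ} (hN : N.Finite) (hGN : Gf X O ⊆ N)
    (hXY : ∀ a ∈ Gf X O, ∀ b ∈ Gf X O, nbr X a b → nbr Y a b) :
    ‖(TD h hf).HH o q‖ ≤
      2 * qpr N (fun W => UArm Y W (closedBall p (δ + s)) (ball p (ρ - s))ᶜ) := by
  set W : Set ℂ := {v ∈ X | (vcell X v ∩ K).Nonempty} ∩ Gf X O with hW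
  have hWG : W ⊆ Gf X O := fun v hv => hv.2
  obtain ⟨hk, Q, hQ1, hQ2⟩ := qpr_bound (k := k) hWG hs0 (fun v hv => hKp v hv.1.1 hv.1.2) hs
    (fun y hy _ _ _ => hO y hy) hδ hN hGN hXY
  have huG : u ∉ Gf X O := fun hc => hc.2 j hu
  obtain ⟨y, z, h1, h2, h3, h4, -⟩ := first_exit
    (chain_nbr h.fin hK (h.nbr_th q).1 huX hq huK) hqG huG
  have hzO : z ∈ O j := (hKG z h3.2.2.1 h3.2.2.2).resolve_left h4
  refine (HH_le h hf ho fun σ hm hne => hQ1 σ ?_).trans hQ2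
  exact farm_of_NK_ne_zero h hf ho hm hWG (x := tail q) (y := y) ⟨⟨(h.nbr_th q).1, hq⟩, hqG⟩
    (Relation.ReflTransGen.mono (fun a b h => ⟨h.1.1, ⟨h.1.2.1, h.2.1⟩, ⟨h.1.2.2, h.2.2⟩⟩) _ _ h1)
    hzO h3.1 rfl hne hk hd

end

end Vale.Agent.P148.R2.H847
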