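import Vale.Agent.P148.R2.H847.Arm2

/-!
# P148, module BV: quenched probabilities as uniform subsets; the bound of the observables by arms
-/

open Set Metric

namespace Vale.Agent.P148.R2.H847

open Vale.Agent.P148.R2.H592 Vale.Agent.P148.R2

/-- The probability of `Q` for a uniform random subset of the finite set `N` (the black points). -/
noncomputable def qpr (N : Set ℂ) (Q : Set ℂ → Prop) : ℝ :=
  ({W | W ⊆ N ∧ Q W}.ncard : ℝ) / 2 ^ N.ncard

theorem finite_subs {N : Set ℂ} (hN : N.Finite) (Q : Set ℂ → Prop) :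
    {W | W ⊆ N ∧ Q W}.Finite :=
  hN.finite_subsets.subset fun _ h => h.1

theorem qpr_nonneg (N : Set ℂ) (Q : Set ℂ → Prop) : 0 ≤ qpr N Q := by
  unfold qpr; positivity

theorem qpr_mono {N : Set ℂ} (hN : N.Finite) {Q Q' : Set ℂ → Prop}
    (h : ∀ W ⊆ N, Q W → Q' W) : qpr N Q ≤ qpr N Q' := by
  unfold qpr
  have hsub : {W | W ⊆ N ∧ Q W} ⊆ {W | W ⊆ N ∧ Q' W} := fun W hW => ⟨hW.1, h W hW.1 hW.2⟩
  refine div_le_div_of_nonneg_right ?_ (by positivity)
  exact_mod_cast Set.ncard_le_ncard hsub (finite_subs hN Q')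

theorem qpr_le_one {N : Set ℂ} (hN : N.Finite) (Q : Set ℂ → Prop) : qpr N Q ≤ 1 := by
  have h1 : qpr N Q ≤ qpr N (fun _ => True) := qpr_mono hN fun _ _ _ => trivial
  refine h1.trans ?_
  unfold qpr
  rw [div_le_one (by positivity)]
  have : {W | W ⊆ N ∧ True} = 𝒫 N := by
    ext W; simp
  rw [this, Set.ncard_powerset N hN]
  push_cast
  rfl

theorem qpr_or (N : Set ℂ) (Q Q' : Set ℂ → Prop) :
    qpr N (fun W => Q W ∨ Q' W) ≤ qpr N Q + qpr N Q' := by
  unfold qpr
  rw [← add_div]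
  gcongr
  have h1 : {W | W ⊆ N ∧ (Q W ∨ Q' W)} = {W | W ⊆ N ∧ Q W} ∪ {W | W ⊆ N ∧ Q' W} := by
    ext W
    simp only [mem_ofPred_eq, mem_union]
    tauto
  rw [h1]
  exact_mod_cast Set.ncard_union_le _ _

theorem qpr_compl {N : Set ℂ} (Q : Set ℂ → Prop) :
    qpr N (fun W => Q (N \ W)) = qpr N Q := by
  unfold qpr
  congr 2
  refine Set.ncard_congr (fun W _ => N \ W) ?_ ?_ ?_
  · intro W hW
    exact ⟨sdiff_subset, hW.2⟩
  · intro W W' hW hW' h
    have h1 : N \ (N \ W) = N \ (N \ W') := by rw [h]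
    rwa [sdiff_sdiff_cancel_left hW.1, sdiff_sdiff_cancel_left hW'.1] at h1
  · intro W hW
    refine ⟨N \ W, ⟨sdiff_subset, ?_⟩, ?_⟩
    · show Q (N \ (N \ W))
      rw [sdiff_sdiff_cancel_left hW.1]
      exact hW.2
    · exact sdiff_sdiff_cancel_left hW.1

/-- An event which only depends on the trace on `G`. -/
theorem qpr_restrict {N G : Set ℂ} (hN : N.Finite) (hG : G ⊆ N) (Q : Set ℂ → Prop) :
    qpr N (fun W => Q (W ∩ G)) = qpr G Q := by
  have hGf := hN.subset hG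
  have h1 : {W | W ⊆ N ∧ Q (W ∩ G)}.ncard =
      ({W | W ⊆ G ∧ Q W} ×ˢ 𝒫 (N \ G)).ncard := by
    refine Set.ncard_congr (fun W _ => (W ∩ G, W \ G)) ?_ ?_ ?_
    · intro W hW
      exact ⟨⟨inter_subset_right, hW.2⟩, sdiff_subset_sdiff_left hW.1⟩
    · intro W W' _ _ h
      have h2 := congrArg Prod.fst h
      have h3 := congrArg Prod.snd h
      simp only at h2 h3
      rw [← inter_union_sdiff W G, h2, h3, inter_union_sdiff]
    · rintro ⟨A, B⟩ ⟨hA, hB⟩
      have hB' : B ⊆ N \ G := hB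
      have e1 : (A ∪ B) ∩ G = A := by
        ext x
        constructor
        · rintro ⟨hx | hx, hxG⟩
          · exact hx
          · exact absurd hxG (hB' hx).2
        · intro hx
          exact ⟨Or.inl hx, hA.1 hx⟩
      have e2 : (A ∪ B) \ G = B := by
        ext x
        constructor
        · rintro ⟨hx | hx, hxG⟩
          · exact absurd (hA.1 hx) hxG
          · exact hx
        · intro hx
          exact ⟨Or.inr hx, (hB' hx).2⟩
      refine ⟨A ∪ B, ⟨union_subset (hA.1.trans hG) (hB'.trans sdiff_subset), ?_⟩, ?_⟩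
      · rw [e1]; exact hA.2
      · rw [e1, e2]
  unfold qpr
  rw [h1, Set.ncard_prod, Set.ncard_powerset _ (hN.subset sdiff_subset)]
  have h2 : N.ncard = G.ncard + (N \ G).ncard := by
    rw [add_comm, Set.ncard_sdiff_add_ncard_of_subset hG hN]
  rw [h2, pow_add]
  push_cast
  field_simp

theorem qpr_congr {N : Set ℂ} {Q Q' : Set ℂ → Prop} (h : ∀ W ⊆ N, Q W ↔ Q' W) :
    qpr N Q = qpr N Q' := by
  unfold qpr
  congr 2
  have : {W | W ⊆ N ∧ Q W} = {W | W ⊆ N ∧ Q' W} := by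
    ext W
    constructor
    · rintro ⟨h1, h2⟩; exact ⟨h1, (h W h1).1 h2⟩
    · rintro ⟨h1, h2⟩; exact ⟨h1, (h W h1).2 h2⟩
  rw [this]

section

variable {X : Set ℂ} {b : ZMod 3 → ℂ} (h : HullTri X b) {O : ZMod 3 → Set ℂ}
  (hf : Fib X (cmap X O))

/-- The black free points of a colouring. -/
def blackF (σ : CV X O → Bool) : Set ℂ := {x | x ∈ Gf X O ∧ colOf σ x = true}

theorem card_mi3 : ∀ i j k : ZMod 3, i ≠ j → k ≠ j → k ≠ i →
    (Finset.univ.filter fun a : ZMod 3 → Bool => a i ≠ a j ∧ a k = a i).card = 2 := by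
  decide

theorem count_free (Q : Set ℂ → Prop) [Finite (Free X O)] :
    {W | W ⊆ Gf X O ∧ Q W}.ncard = Nat.card {τ : Free X O → Bool // Q {x | ∃ hx : x ∈ Gf X O,
      τ ⟨x, hx⟩ = true}} := by
  classical
  rw [← Nat.card_coe_set_eq]
  symm
  refine Nat.card_eq_of_bijective (fun τ : {τ : Free X O → Bool // Q {x | ∃ hx : x ∈ Gf X O,
      τ ⟨x, hx⟩ = true}} => (⟨{x | ∃ hx : x ∈ Gf X O, τ.1 ⟨x, hx⟩ = true}, fun x hx => hx.1, τ.2⟩ :
      {W | W ⊆ Gf X O ∧ Q W})) ⟨?_, ?_⟩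
  · intro τ τ' hτ
    have h1 : {x | ∃ hx : x ∈ Gf X O, τ.1 ⟨x, hx⟩ = true} =
        {x | ∃ hx : x ∈ Gf X O, τ'.1 ⟨x, hx⟩ = true} := congrArg Subtype.val hτ
    apply Subtype.ext
    funext x
    rw [Bool.eq_iff_iff]
    constructor
    · intro hx
      have h2 : x.1 ∈ {x | ∃ hx : x ∈ Gf X O, τ.1 ⟨x, hx⟩ = true} := ⟨x.2, hx⟩
      rw [h1] at h2
      exact h2.2
    · intro hx
      have h2 : x.1 ∈ {x | ∃ hx : x ∈ Gf X O, τ'.1 ⟨x, hx⟩ = true} := ⟨x.2, hx⟩
      rw [← h1] at h2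
      exact h2.2
  · rintro ⟨W, hW1, hW2⟩
    have h1 : {x | ∃ hx : x ∈ Gf X O, (fun y : Free X O => decide (y.1 ∈ W)) ⟨x, hx⟩ = true} = W := by
      ext x
      constructor
      · rintro ⟨hx, h1⟩
        exact of_decide_eq_true h1
      · intro hx
        exact ⟨hW1 hx, decide_eq_true hx⟩
    refine ⟨⟨fun x => decide (x.1 ∈ W), ?_⟩, ?_⟩
    · rw [h1]; exact hW2
    · apply Subtype.ext
      exact h1

/-- The number of colourings with a minority outer dart and a property of the free points. -/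
theorem card_mi_Q [Fintype (CV X O)] {o : Fc X b × ZMod 3} {j : ZMod 3} (ho : OutD h hf o j)
    (Q : Set ℂ → Prop) :
    4 * (Nat.card {σ : CV X O → Bool // (TD h hf).Mi σ o ∧ Q (blackF σ)} : ℝ) =
      2 ^ Fintype.card (CV X O) * qpr (Gf X O) Q := by
  classical
  have hfin : Finite (Free X O) := Finite.of_injective (Sum.inr : Free X O → CV X O)
    Sum.inr_injective
  have := Fintype.ofFinite (Free X O)
  obtain ⟨h1, i, hi, h2, k, hk, hki, h3⟩ := ho
  have e1 : Nat.card {σ : CV X O → Bool // (TD h hf).Mi σ o ∧ Q (blackF σ)} =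
      Nat.card ({a : ZMod 3 → Bool // a i ≠ a j ∧ a k = a i} ×
        {τ : Free X O → Bool // Q {x | ∃ hx : x ∈ Gf X O, τ ⟨x, hx⟩ = true}}) := by
    refine Nat.card_congr ?_
    have hb : ∀ σ : CV X O → Bool, blackF σ =
        {x | ∃ hx : x ∈ Gf X O, (fun y : Free X O => σ (Sum.inr y)) ⟨x, hx⟩ = true} := by
      intro σ
      ext x
      constructor
      · rintro ⟨hx, h4⟩
        refine ⟨hx, ?_⟩
        unfold colOf at h4
        rwa [cmap_of_free hx.1 hx.2] at h4
      · rintro ⟨hx, h4⟩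
        refine ⟨hx, ?_⟩
        unfold colOf
        rwa [cmap_of_free hx.1 hx.2]
    have hmi : ∀ σ : CV X O → Bool, (TD h hf).Mi σ o ↔
        (σ (Sum.inl i) ≠ σ (Sum.inl j) ∧ σ (Sum.inl k) = σ (Sum.inl i)) := by
      intro σ
      unfold H258.Tri.Mi
      rw [h1, h2, h3]
    exact
      { toFun := fun σ => (⟨fun m => σ.1 (Sum.inl m), (hmi σ.1).1 σ.2.1⟩,
          ⟨fun y => σ.1 (Sum.inr y), by rw [← hb]; exact σ.2.2⟩)
        invFun := fun p => ⟨Sum.elim p.1.1 p.2.1, (hmi _).2 p.1.2, by rw [hb]; exact p.2.2⟩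
        left_inv := fun σ => by
          apply Subtype.ext
          funext v
          cases v <;> rfl
        right_inv := fun p => by rfl }
  rw [e1, Nat.card_prod, ← count_free Q]
  have e2 : Nat.card {a : ZMod 3 → Bool // a i ≠ a j ∧ a k = a i} = 2 := by
    rw [Nat.card_eq_fintype_card, Fintype.card_subtype]
    exact card_mi3 i j k hi hk hki
  rw [e2]
  unfold qpr
  have e3 : Fintype.card (CV X O) = 3 + (Gf X O).ncard := by
    rw [← Nat.card_eq_fintype_card, Nat.card_sum]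
    congr 1
    · rw [Nat.card_eq_fintype_card]; rfl
  rw [e3, pow_add]
  push_cast
  field_simp
  norm_num

theorem NK_zero_or_one (σ : CV X O → Bool) (o q : Fc X b × ZMod 3) :
    (TD h hf).NK σ o q = 0 ∨ (TD h hf).NK σ o q = 1 := by
  unfold H258.Tri.NK
  split_ifs
  · exact Or.inr rfl
  · exact Or.inl rfl

theorem card_eq_sum' {α : Type*} (p : α → Prop) [DecidablePred p] (F : Fintype α) :
    ∑ a, (if p a then (1 : ℝ) else 0) = (Nat.card {a // p a} : ℝ) := by
  rw [Nat.card_eq_fintype_card, Fintype.card_subtype, Finset.card_filter]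
  push_cast
  rfl

/-- **The oscillation of the observable is at most the quenched probability of an arm.** -/
theorem HH_sub_le [Fintype (CV X O)] {o : Fc X b × ZMod 3} {j : ZMod 3} (ho : OutD h hf o j)
    {q r : Fc X b × ZMod 3} {Q : Set ℂ → Prop}
    (hQ : ∀ σ : CV X O → Bool, (TD h hf).Mi σ o →
      (TD h hf).NK σ o q ≠ (TD h hf).NK σ o r → Q (blackF σ)) :
    ‖(TD h hf).HH o q - (TD h hf).HH o r‖ ≤ qpr (Gf X O) Q := by
  classical
  unfold H258.Tri.HH
  rw [← mul_sub, ← Finset.sum_sub_distrib, norm_mul]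
  have h1 : ‖(4 : ℂ) / 2 ^ Fintype.card (CV X O)‖ = 4 / 2 ^ Fintype.card (CV X O) := by
    rw [norm_div, norm_pow]; norm_num
  rw [h1]
  have key : ∀ s : ℂ, ‖s‖ ≤
      (Nat.card {σ : CV X O → Bool // (TD h hf).Mi σ o ∧ Q (blackF σ)} : ℝ) →
      4 / 2 ^ Fintype.card (CV X O) * ‖s‖ ≤ qpr (Gf X O) Q := by
    intro s hs
    refine (mul_le_mul_of_nonneg_left hs (by positivity)).trans (le_of_eq ?_)
    have h3 := card_mi_Q h hf ho Q
    have h4 : (2 : ℝ) ^ Fintype.card (CV X O) ≠ 0 := by positivity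
    rw [div_mul_eq_mul_div, h3]
    field_simp
  refine key _ ((norm_sum_le _ _).trans ((Finset.sum_le_sum
    (g := fun σ => if (TD h hf).Mi σ o ∧ Q (blackF σ) then (1 : ℝ) else 0)
    fun σ _ => ?_).trans (le_of_eq (card_eq_sum' _ _))))
  · by_cases hm : (TD h hf).Mi σ o
    · rw [if_pos hm, if_pos hm]
      by_cases hne : (TD h hf).NK σ o q = (TD h hf).NK σ o r
      · rw [hne, sub_self, norm_zero]
        split_ifs <;> norm_num
      · rw [if_pos ⟨hm, hQ σ hm hne⟩]
        rcases NK_zero_or_one h hf σ o q with e | e <;> rcases NK_zero_or_one h hf σ o r with e' | e'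
          <;> rw [e, e'] <;> norm_num
    · rw [if_neg hm, if_neg hm, sub_self, norm_zero]
      split_ifs <;> norm_num

/-- The same for one dart: a bound of the observable. -/
theorem HH_le [Fintype (CV X O)] {o : Fc X b × ZMod 3} {j : ZMod 3} (ho : OutD h hf o j)
    {q : Fc X b × ZMod 3} {Q : Set ℂ → Prop}
    (hQ : ∀ σ : CV X O → Bool, (TD h hf).Mi σ o → (TD h hf).NK σ o q ≠ 0 → Q (blackF σ)) :
    ‖(TD h hf).HH o q‖ ≤ qpr (Gf X O) Q := by
  have := h.finite_Fc
  have hP : (TD h hf).Planar := h.planar258 (cmap X O) hf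
  have h0 : (TD h hf).HH o o = 0 := (TD h hf).HH_minority' hP ho.good rfl
  have := HH_sub_le h hf ho (q := q) (r := o) (Q := Q) (fun σ hm hne => hQ σ hm (by
    have e : (TD h hf).NK σ o o = 0 := by
      rw [← (TD h hf).NK_rev]
      exact (TD h hf).NK_minority hP hm ho.good.2.2 ((TD h hf).src_rev o)
    rwa [e] at hne))
  rwa [h0, sub_zero] at this

end

end Vale.Agent.P148.R2.H847
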