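import Vale.Agent.P148.R2.H219.Arcs

/-!
# Every quad has a uniformizer, up to its orientation

`Q.rev` is the quad `Q` with its marked points in the reverse order `d, c, b, a` (the same domain,
the same crossing events). Every quad or its reverse has a uniformizer, and `0 < x < 1`.
-/

open Set Metric Filter Topology Bornology
open scoped ComplexConjugate

namespace Vale.Agent.P148.R2.H847

open _root_.P148 _root_.P148.Half Vale.Agent.P153.R2.R1 Vale.Agent.P148.R2.H219

/-! ### The reversed quad -/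

/-- The quad with the marked points in the reverse order. -/
noncomputable def rev (Q : Quad) : Quad := ⟨Complex.conjCLE.toHomeomorph.trans Q.H⟩

theorem rev_H (Q : Quad) (z : ℂ) : (rev Q).H z = Q.H (conj z) := rfl

theorem rev_image (Q : Quad) {s t : Set ℂ} (h : ∀ z, z ∈ t ↔ conj z ∈ s) :
    (rev Q).H '' t = Q.H '' s := by
  ext w
  constructor
  · rintro ⟨z, hz, rfl⟩
    exact ⟨conj z, (h z).1 hz, rfl⟩
  · rintro ⟨z, hz, rfl⟩
    refine ⟨conj z, (h _).2 (by rw [Complex.conj_conj]; exact hz), ?_⟩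
    rw [rev_H, Complex.conj_conj]

theorem rev_D (Q : Quad) : (rev Q).D = Q.D :=
  rev_image Q fun z => by simp [abs_neg]

theorem rev_mark (Q : Quad) (i : Fin 4) : (rev Q).mark i = Q.mark (3 - i) := by
  show Q.H (conj (corner i)) = Q.H (corner (3 - i))
  congr 1
  fin_cases i <;> apply Complex.ext <;>
    simp [corner, show (3 : Fin 4) - 1 = 2 from rfl, show (3 : Fin 4) - 2 = 1 from rfl]

theorem rev_arc0 (Q : Quad) : (rev Q).arc 0 = Q.arc 2 :=
  rev_image Q fun z => by
    show (|z.re| ≤ 1 ∧ z.im = -1) ↔ (|(conj z).re| ≤ 1 ∧ (conj z).im = 1)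
    rw [Complex.conj_re, Complex.conj_im]
    constructor <;> rintro ⟨h1, h2⟩ <;> exact ⟨h1, by linarith⟩

theorem rev_arc1 (Q : Quad) : (rev Q).arc 1 = Q.arc 1 :=
  rev_image Q fun z => by
    show (z.re = 1 ∧ |z.im| ≤ 1) ↔ ((conj z).re = 1 ∧ |(conj z).im| ≤ 1)
    rw [Complex.conj_re, Complex.conj_im, abs_neg]

theorem rev_arc2 (Q : Quad) : (rev Q).arc 2 = Q.arc 0 :=
  rev_image Q fun z => by
    show (|z.re| ≤ 1 ∧ z.im = 1) ↔ (|(conj z).re| ≤ 1 ∧ (conj z).im = -1)
    rw [Complex.conj_re, Complex.conj_im]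
    constructor <;> rintro ⟨h1, h2⟩ <;> exact ⟨h1, by linarith⟩

theorem rev_arc3 (Q : Quad) : (rev Q).arc 3 = Q.arc 3 :=
  rev_image Q fun z => by
    show (z.re = -1 ∧ |z.im| ≤ 1) ↔ ((conj z).re = -1 ∧ |(conj z).im| ≤ 1)
    rw [Complex.conj_re, Complex.conj_im, abs_neg]

/-- The crossing events of the reversed quad. -/
theorem rev_cross (Q : Quad) (R : Set ℂ) : (rev Q).Cross 0 2 R ↔ Q.Cross 0 2 R := by
  unfold Quad.Cross
  rw [rev_D, rev_arc0, rev_arc2]
  constructor <;> rintro ⟨K, h1, h2, h3, h4⟩ <;> exact ⟨K, h1, h2, h4, h3⟩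

/-! ### Strict bounds -/

theorem mark_ne' (Q : Quad) {i j : Fin 4} (h : i ≠ j) : Q.mark i ≠ Q.mark j := by
  intro he
  have h1 := Q.H.injective he
  revert h h1
  fin_cases i <;> fin_cases j <;> intro h h1 <;> first
    | exact absurd rfl h
    | (have h2 := congrArg Complex.re h1
       norm_num [corner] at h2; done)
    | (have h2 := congrArg Complex.im h1
       norm_num [corner] at h2; done)

theorem mark_mem_frontier (Q : Quad) (i : Fin 4) : Q.mark i ∈ frontier Q.D :=
  arc_subset_frontier Q i (mark_mem_arc Q i)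

/-- The modulus of a quad is strictly between `0` and `1`. -/
theorem x_mem_Ioo {Q : Quad} {φ : ℂ → ℂ} {x : ℝ} (h : Q.IsUniformizer φ x) : 0 < x ∧ x < 1 := by
  obtain ⟨h0, h1⟩ := x_mem h
  have hb : (φ (Q.mark 1)).re = x := by rw [h.at_b, Complex.ofReal_re]
  refine ⟨lt_of_le_of_ne h0 ?_, lt_of_le_of_ne h1 ?_⟩
  · rintro rfl
    exact mark_ne' Q (i := 0) (j := 1) (by decide) (eq_of_re h (mark_mem_frontier Q 0)
      (mark_ne Q (by decide)) (mark_mem_frontier Q 1) (mark_ne Q (by decide))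
      (by rw [re_mark0 h, hb]))
  · rintro rfl
    exact mark_ne' Q (i := 2) (j := 1) (by decide) (eq_of_re h (mark_mem_frontier Q 2)
      (mark_ne Q (by decide)) (mark_mem_frontier Q 1) (mark_ne Q (by decide))
      (by rw [re_mark2 h, hb]))

/-! ### The conformal map -/

/-- A conformal map onto the half-plane with `d ↦ ∞` and `a ↦ 0`. -/
structure IsPre (Q : Quad) (f : ℂ → ℂ) : Prop where
  hol : DifferentiableOn ℂ f Q.D
  bij : BijOn f Q.D {w | 0 < w.im}
  cont : ContinuousOn f (closure Q.D \ {Q.mark 3})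
  inj : InjOn f (closure Q.D \ {Q.mark 3})
  real : ∀ p ∈ frontier Q.D, p ≠ Q.mark 3 → (f p).im = 0
  at_a : f (Q.mark 0) = 0
  at_d : Tendsto f (𝓝[closure Q.D \ {Q.mark 3}] (Q.mark 3)) (cobounded ℂ)

theorem exists_pre (Q : Quad) : ∃ f, IsPre Q f := by
  have hg := good_D Q
  obtain ⟨ψ, hψ, -⟩ := hg.exists_isU ⟨_, useq_mem Q 0 0⟩ (mark_mem_frontier Q 0)
    (mark_mem_frontier Q 3) (mark_ne' Q (by decide))
  have hC := hψ.toDisc
  have hinj := hC.injOn hg.nocut
  set Φ : ℂ → ℂ := toDisc ψ (Q.mark 3) with hΦ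
  have h1 : Φ 1 = Q.mark 3 := toDisc_one
  have hm1 : Φ (-1) = Q.mark 0 := toDisc_neg_one hψ
  have h1mem : (1 : ℂ) ∈ closedBall (0 : ℂ) 1 := by simp
  have hm1mem : (-1 : ℂ) ∈ closedBall (0 : ℂ) 1 := by simp
  set u : ℂ → ℂ := Function.invFunOn Φ (closedBall 0 1) with hu
  have hu1 : ∀ p ∈ closure Q.D, u p ∈ closedBall (0 : ℂ) 1 ∧ Φ (u p) = p := by
    intro p hp
    rw [← hC.closure_eq] at hp
    exact ⟨Function.invFunOn_mem hp, Function.invFunOn_eq hp⟩
  have hu2 : ∀ z ∈ closedBall (0 : ℂ) 1, u (Φ z) = z := by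
    intro z hz
    have h2 := hu1 (Φ z) (by rw [← hC.closure_eq]; exact mem_image_of_mem _ hz)
    exact hinj h2.1 hz h2.2
  have hune : ∀ p ∈ closure Q.D \ {Q.mark 3}, u p ≠ 1 := by
    intro p hp e
    have h2 := (hu1 p hp.1).2
    rw [e, h1] at h2
    exact hp.2 h2.symm
  have huball : ∀ p ∈ Q.D, u p ∈ ball (0 : ℂ) 1 := by
    intro p hp
    rw [← hC.img] at hp
    obtain ⟨z, hz, rfl⟩ := hp
    rw [hu2 z (ball_subset_closedBall hz)]
    exact hz
  have husph : ∀ p ∈ frontier Q.D, u p ∈ sphere (0 : ℂ) 1 := by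
    intro p hp
    rw [← hC.frontier_eq] at hp
    obtain ⟨z, hz, rfl⟩ := hp
    rw [hu2 z (sphere_subset_closedBall hz)]
    exact hz
  have hucont : ContinuousOn u (closure Q.D) := by
    intro p hp
    refine hC.tendsto_inv hg.nocut ?_ (hu1 p hp).1 ?_
    · filter_upwards [self_mem_nhdsWithin] with q hq
      exact (hu1 q hq).1
    · rw [(hu1 p hp).2]
      have h3 : Tendsto (fun p : ℂ => p) (𝓝[closure Q.D] p) (𝓝 p) := nhdsWithin_le_nhds
      refine h3.congr' ?_
      filter_upwards [self_mem_nhdsWithin] with q hq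
      exact (hu1 q hq).2.symm
  have hD : Q.D ⊆ closure Q.D \ {Q.mark 3} := fun p hp =>
    ⟨subset_closure hp, fun e => mark_not_mem Q 3 (e ▸ hp)⟩
  refine ⟨fun p => imb 1 Complex.I (u p), ?_, ?_, ?_, ?_, ?_, ?_, ?_⟩
  · intro p hp
    have hd : DifferentiableOn ℂ u Q.D := by
      refine hC.toConf.dinv_differentiableOn.congr fun q hq => ?_
      have h2 : u (Φ (dinv Φ q)) = dinv Φ q := hu2 _ (ball_subset_closedBall (hC.toConf.dinv_mem hq))
      rw [hC.toConf.apply_dinv hq] at h2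
      exact h2
    exact (imb_differentiableAt (hune p (hD hp))).comp_differentiableWithinAt p (hd p hp)
  · refine ⟨?_, ?_, ?_⟩
    · intro p hp
      exact imb_im_pos norm_one I_im_pos (mem_ball_zero_iff.1 (huball p hp))
    · intro p hp q hq he
      have e1 := (mb_imb norm_one I_im_pos (hune p (hD hp))).2
      have e2 := (mb_imb norm_one I_im_pos (hune q (hD hq))).2
      have e3 : u p = u q := by
        rw [← e1, ← e2]
        exact congrArg _ he
      rw [← (hu1 p (subset_closure hp)).2, ← (hu1 q (subset_closure hq)).2, e3]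
    · intro w hw
      have hw' : 0 < w.im := hw
      have hm : mb 1 Complex.I w ∈ ball (0 : ℂ) 1 := by
        rw [mem_ball_zero_iff]; exact norm_mb_lt norm_one I_im_pos hw
      refine ⟨Φ (mb 1 Complex.I w), hC.mem hm, ?_⟩
      show imb 1 Complex.I (u (Φ (mb 1 Complex.I w))) = w
      rw [hu2 _ (ball_subset_closedBall hm), imb_mb norm_one I_im_pos hw'.le]
  · intro p hp
    exact (imb_differentiableAt (hune p hp)).continuousAt.comp_continuousWithinAt
      ((hucont p hp.1).mono sdiff_subset)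
  · intro p hp q hq he
    have e1 := (mb_imb norm_one I_im_pos (hune p hp)).2
    have e2 := (mb_imb norm_one I_im_pos (hune q hq)).2
    have e3 : u p = u q := by
      rw [← e1, ← e2]
      exact congrArg _ he
    rw [← (hu1 p hp.1).2, ← (hu1 q hq.1).2, e3]
  · intro p hp hp3
    exact imb_im_eq norm_one I_im_pos (mem_sphere_zero_iff_norm.1 (husph p hp))
      (hune p ⟨frontier_subset_closure hp, hp3⟩)
  · show imb 1 Complex.I (u (Q.mark 0)) = 0
    rw [← hm1, hu2 _ hm1mem, imb, Complex.conj_I]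
    simp
  · have h3 : Tendsto u (𝓝[closure Q.D \ {Q.mark 3}] (Q.mark 3)) (𝓝[closedBall 0 1 \ {1}] 1) := by
      refine tendsto_nhdsWithin_iff.2 ⟨?_, ?_⟩
      · have h4 := (hucont (Q.mark 3) (frontier_subset_closure (mark_mem_frontier Q 3))).mono
          (sdiff_subset (t := {Q.mark 3}))
        have e : u (Q.mark 3) = 1 := by rw [← h1, hu2 _ h1mem]
        rw [ContinuousWithinAt, e] at h4
        exact h4
      · filter_upwards [self_mem_nhdsWithin] with p hp
        exact ⟨(hu1 p hp.1).1, hune p hp⟩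
    exact ((tendsto_inf.1 (tendsto_imb norm_one I_im_pos)).1).comp h3

/-! ### The order of the marks -/

/-- The path along the arcs `ab`, `bc`. -/
noncomputable def pth (t : ℝ) : ℂ := ⟨min t 1, max (-1) (t - 2)⟩

theorem pth_add (t : ℝ) : (pth t).re + (pth t).im = t - 1 := by
  show min t 1 + max (-1) (t - 2) = t - 1
  rcases le_total t 1 with h | h
  · rw [min_eq_left h, max_eq_left (by linarith)]; ring
  · rw [min_eq_right h, max_eq_right (by linarith)]; ring

theorem pth_injective : Function.Injective pth := by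
  intro s t h
  have h1 := pth_add s
  rw [h, pth_add t] at h1
  linarith

theorem continuous_pth : Continuous pth := by
  have h : pth = fun t : ℝ => ((min t 1 : ℝ) : ℂ) + ((max (-1) (t - 2) : ℝ) : ℂ) * Complex.I := by
    funext t
    apply Complex.ext <;> simp [pth]
  rw [h]
  fun_prop

theorem pth_mem {t : ℝ} (h1 : -1 ≤ t) (h3 : t ≤ 3) : pth t ∈ sq := by
  constructor
  · show |min t 1| ≤ 1
    rw [abs_le]
    exact ⟨le_min h1 (by norm_num), min_le_right _ _⟩
  · show |max (-1) (t - 2)| ≤ 1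
    rw [abs_le]
    exact ⟨le_max_left _ _, max_le (by norm_num) (by linarith)⟩

theorem pth_a : pth (-1) = corner 0 := by apply Complex.ext <;> norm_num [pth, corner]

theorem pth_b : pth 1 = corner 1 := by apply Complex.ext <;> norm_num [pth, corner]

theorem pth_c : pth 3 = corner 2 := by apply Complex.ext <;> norm_num [pth, corner]

theorem pth_ne {t : ℝ} : pth t ≠ corner 3 := by
  intro h
  have h1 : min t 1 = -1 := congrArg Complex.re h
  have h2 : max (-1) (t - 2) = 1 := congrArg Complex.im h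
  rcases le_total t 1 with h3 | h3
  · rw [max_eq_left (by linarith)] at h2
    norm_num at h2
  · rw [min_eq_right h3] at h1
    norm_num at h1

/-- The value at `b` is strictly between the values at `a` and at `c`. -/
theorem IsPre.order {Q : Quad} {f : ℂ → ℂ} (h : IsPre Q f) :
    (0 < (f (Q.mark 1)).re ∧ (f (Q.mark 1)).re < (f (Q.mark 2)).re) ∨
      ((f (Q.mark 1)).re < 0 ∧ (f (Q.mark 2)).re < (f (Q.mark 1)).re) := by
  have hm : ∀ t ∈ Icc (-1 : ℝ) 3, Q.H (pth t) ∈ closure Q.D \ {Q.mark 3} := by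
    intro t ht
    refine ⟨?_, fun e => pth_ne (Q.H.injective e)⟩
    rw [closure_D]
    exact mem_image_of_mem _ (pth_mem ht.1 ht.2)
  have hfr : ∀ t ∈ Icc (-1 : ℝ) 3, Q.H (pth t) ∈ frontier Q.D := by
    intro t ht
    rcases le_total t 1 with h1 | h1
    · refine arc_subset_frontier Q 0 (mem_image_of_mem _ ⟨(pth_mem ht.1 ht.2).1, ?_⟩)
      exact max_eq_left (by linarith)
    · refine arc_subset_frontier Q 1 (mem_image_of_mem _ ⟨?_, (pth_mem ht.1 ht.2).2⟩)
      exact min_eq_right h1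
  have hc : ContinuousOn (fun t => (f (Q.H (pth t))).re) (Icc (-1 : ℝ) 3) :=
    Complex.continuous_re.comp_continuousOn
      (h.cont.comp (Q.H.continuous.comp continuous_pth).continuousOn hm)
  have hi : InjOn (fun t => (f (Q.H (pth t))).re) (Icc (-1 : ℝ) 3) := by
    intro s hs t ht he
    refine pth_injective (Q.H.injective (h.inj (hm s hs) (hm t ht) (Complex.ext he ?_)))
    rw [h.real _ (hfr s hs) (hm s hs).2, h.real _ (hfr t ht) (hm t ht).2]
  have e0 : (f (Q.H (pth (-1)))).re = 0 := by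
    rw [pth_a]
    have := h.at_a
    rw [Quad.mark] at this
    rw [this, Complex.zero_re]
  have m0 : (-1 : ℝ) ∈ Icc (-1 : ℝ) 3 := by constructor <;> norm_num
  have m1 : (1 : ℝ) ∈ Icc (-1 : ℝ) 3 := by constructor <;> norm_num
  have m2 : (3 : ℝ) ∈ Icc (-1 : ℝ) 3 := by constructor <;> norm_num
  rcases hc.strictMonoOn_of_injOn_Icc' (by norm_num) hi with h1 | h1
  · left
    have h2 := h1 m0 m1 (by norm_num)
    have h3 := h1 m1 m2 (by norm_num)
    simp only [e0, pth_b, pth_c] at h2 h3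
    exact ⟨h2, h3⟩
  · right
    have h2 := h1 m0 m1 (by norm_num)
    have h3 := h1 m1 m2 (by norm_num)
    simp only [e0, pth_b, pth_c] at h2 h3
    exact ⟨h2, h3⟩

/-! ### Existence -/

/-- Division by a positive number. -/
theorem bij_div {Q : Quad} {f : ℂ → ℂ} (h : BijOn f Q.D {w | 0 < w.im}) {t : ℝ} (ht : 0 < t) :
    BijOn (fun p => f p / t) Q.D {w | 0 < w.im} := by
  have ht0 : (t : ℂ) ≠ 0 := by exact_mod_cast ht.ne'
  refine ⟨?_, ?_, ?_⟩
  · intro p hp
    have h1 : 0 < (f p).im := h.mapsTo hp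
    show 0 < (f p / t).im
    rw [Complex.div_ofReal_im]
    positivity
  · intro p hp q hq he
    refine h.injOn hp hq ?_
    have he' : f p / t = f q / t := he
    rwa [div_left_inj' ht0] at he'
  · intro w hw
    have hw' : 0 < w.im := hw
    obtain ⟨p, hp, he⟩ := h.surjOn (show w * t ∈ {w : ℂ | 0 < w.im} by
      show 0 < (w * t).im
      rw [Complex.im_mul_ofReal]
      positivity)
    refine ⟨p, hp, ?_⟩
    show f p / t = w
    rw [he]
    field_simp

/-- **The positive case.** -/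
theorem IsPre.pos {Q : Quad} {f : ℂ → ℂ} (h : IsPre Q f) (h2 : 0 < (f (Q.mark 2)).re) :
    Q.IsUniformizer (fun p => f p / ((f (Q.mark 2)).re : ℂ))
      ((f (Q.mark 1)).re / (f (Q.mark 2)).re) := by
  have hne : ((f (Q.mark 2)).re : ℂ) ≠ 0 := by exact_mod_cast h2.ne'
  have hr : ∀ i : Fin 4, i ≠ 3 → f (Q.mark i) = ((f (Q.mark i)).re : ℂ) := fun i hi =>
    Complex.ext (by simp) (by simp [h.real _ (mark_mem_frontier Q i) (mark_ne Q hi)])
  refine ⟨?_, bij_div h.bij h2, ?_, ?_, ?_, ?_, ?_⟩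
  · exact h.hol.div_const _
  · exact h.cont.div_const _
  · simp only [h.at_a, zero_div]
  · show f (Q.mark 1) / _ = _
    rw [hr 1 (by decide)]
    push_cast
    simp
  · show f (Q.mark 2) / _ = _
    rw [hr 2 (by decide)]
    simp only [Complex.ofReal_re]
    exact div_self hne
  · have h3 : Tendsto (fun z => ‖f z‖) (𝓝[Q.D] (Q.mark 3)) atTop :=
      tendsto_norm_cobounded_atTop.comp (h.at_d.mono_left (nhdsWithin_mono _ fun p hp =>
        ⟨subset_closure hp, fun e => mark_not_mem Q 3 (e ▸ hp)⟩))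
    have h4 : (fun z => ‖f z / ((f (Q.mark 2)).re : ℂ)‖) =
        fun z => ‖f z‖ / ‖((f (Q.mark 2)).re : ℂ)‖ := by
      funext z; rw [norm_div]
    rw [h4]
    exact h3.atTop_div_const (norm_pos_iff.2 hne)

open Classical in
/-- **The negative case.** -/
theorem IsPre.neg {Q : Quad} {f : ℂ → ℂ} (h : IsPre Q f) (h1 : (f (Q.mark 1)).re < 0) :
    (rev Q).IsUniformizer
      (fun p => if p = Q.mark 3 then 0 else ((f (Q.mark 1)).re : ℂ) / f p)
      ((f (Q.mark 1)).re / (f (Q.mark 2)).re) := by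
  set t : ℝ := (f (Q.mark 1)).re with ht
  have hne : (t : ℂ) ≠ 0 := by exact_mod_cast h1.ne
  have hr : ∀ i : Fin 4, i ≠ 3 → f (Q.mark i) = ((f (Q.mark i)).re : ℂ) := fun i hi =>
    Complex.ext (by simp) (by simp [h.real _ (mark_mem_frontier Q i) (mark_ne Q hi)])
  have e0 : (rev Q).mark 0 = Q.mark 3 := rev_mark Q 0
  have e1 : (rev Q).mark 1 = Q.mark 2 := rev_mark Q 1
  have e2 : (rev Q).mark 2 = Q.mark 1 := rev_mark Q 2
  have e3 : (rev Q).mark 3 = Q.mark 0 := by rw [rev_mark]; rfl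
  have hD : ∀ p ∈ Q.D, p ≠ Q.mark 3 := fun p hp e => mark_not_mem Q 3 (e ▸ hp)
  have hfD : ∀ p ∈ Q.D, f p ≠ 0 := by
    intro p hp e
    have h3 : 0 < (f p).im := h.bij.mapsTo hp
    rw [e] at h3
    exact lt_irrefl _ h3
  have hfc : ∀ p ∈ closure Q.D \ {Q.mark 3}, p ≠ Q.mark 0 → f p ≠ 0 := by
    intro p hp hp0 e
    refine hp0 (h.inj hp ⟨frontier_subset_closure (mark_mem_frontier Q 0),
      mark_ne Q (by decide)⟩ ?_)
    rw [e, h.at_a]
  refine ⟨?_, ⟨?_, ?_, ?_⟩, ?_, ?_, ?_, ?_, ?_⟩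
  · rw [rev_D]
    refine DifferentiableOn.congr (f := fun p => (t : ℂ) / f p) ?_ fun p hp => ?_
    · exact (differentiableOn_const _).div h.hol hfD
    · rw [if_neg (hD p hp)]
  · rw [rev_D]
    intro p hp
    show 0 < (if p = Q.mark 3 then (0 : ℂ) else (t : ℂ) / f p).im
    rw [if_neg (hD p hp)]
    have h3 : 0 < (f p).im := h.bij.mapsTo hp
    have h4 : 0 < Complex.normSq (f p) := Complex.normSq_pos.2 (hfD p hp)
    rw [Complex.div_im, Complex.ofReal_im, Complex.ofReal_re]
    have : (0 * (f p).re / Complex.normSq (f p) - t * (f p).im / Complex.normSq (f p)) =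
        (-t) * (f p).im / Complex.normSq (f p) := by ring
    rw [this]
    have : 0 < -t := by linarith
    positivity
  · rw [rev_D]
    intro p hp q hq he
    simp only [if_neg (hD p hp), if_neg (hD q hq)] at he
    refine h.bij.injOn hp hq ?_
    have h3 := hfD p hp
    have h4 := hfD q hq
    field_simp at he
    exact he.symm
  · rw [rev_D]
    intro w hw
    have hw' : 0 < w.im := hw
    have hw0 : w ≠ 0 := by rintro rfl; exact lt_irrefl _ hw'
    obtain ⟨p, hp, he⟩ := h.bij.surjOn (show (t : ℂ) / w ∈ {w : ℂ | 0 < w.im} by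
      show 0 < ((t : ℂ) / w).im
      have h4 : 0 < Complex.normSq w := Complex.normSq_pos.2 hw0
      rw [Complex.div_im, Complex.ofReal_im, Complex.ofReal_re]
      have : (0 * w.re / Complex.normSq w - t * w.im / Complex.normSq w) =
          (-t) * w.im / Complex.normSq w := by ring
      rw [this]
      have : 0 < -t := by linarith
      positivity)
    refine ⟨p, hp, ?_⟩
    simp only [if_neg (hD p hp), he]
    field_simp
  · rw [rev_D, e3]
    intro p hp
    by_cases hp3 : p = Q.mark 3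
    · subst hp3
      have h3 : Tendsto (fun p => (t : ℂ) / f p) (𝓝[closure Q.D \ {Q.mark 3}] (Q.mark 3)) (𝓝 0) := by
        have h4 := (tendsto_inv₀_cobounded (α := ℂ)).comp h.at_d
        have h5 := h4.const_mul (t : ℂ)
        rw [mul_zero] at h5
        exact h5
      have h4 : ContinuousWithinAt (fun p => if p = Q.mark 3 then (0 : ℂ) else (t : ℂ) / f p)
          (closure Q.D \ {Q.mark 3}) (Q.mark 3) := by
        rw [ContinuousWithinAt, if_pos rfl]
        refine h3.congr' ?_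
        filter_upwards [self_mem_nhdsWithin] with q hq
        have hq3 : q ≠ Q.mark 3 := hq.2
        rw [if_neg hq3]
      exact (continuousWithinAt_sdiff_self.1 h4).mono sdiff_subset
    · have h2 : ContinuousWithinAt (fun p => (t : ℂ) / f p) (closure Q.D \ {Q.mark 3}) p :=
        continuousWithinAt_const.div (h.cont p ⟨hp.1, hp3⟩) (hfc p ⟨hp.1, hp3⟩ hp.2)
      have h3 : ContinuousWithinAt (fun p => if p = Q.mark 3 then (0 : ℂ) else (t : ℂ) / f p)
          (closure Q.D \ {Q.mark 3}) p :=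
        h2.congr (fun x hx => if_neg hx.2) (if_neg hp3)
      refine (h3.mono_of_mem_nhdsWithin ?_ : ContinuousWithinAt _ (closure Q.D) p).mono sdiff_subset
      filter_upwards [self_mem_nhdsWithin, nhdsWithin_le_nhds (isOpen_ne.mem_nhds hp3)] with x hx
        hx' using ⟨hx, hx'⟩
  · rw [e0]
    exact if_pos rfl
  · rw [e1]
    show (if Q.mark 2 = Q.mark 3 then (0 : ℂ) else (t : ℂ) / f (Q.mark 2)) = _
    rw [if_neg (mark_ne Q (by decide)), hr 2 (by decide)]
    push_cast
    simp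
  · rw [e2]
    show (if Q.mark 1 = Q.mark 3 then (0 : ℂ) else (t : ℂ) / f (Q.mark 1)) = 1
    rw [if_neg (mark_ne Q (by decide)), hr 1 (by decide), ← ht]
    exact div_self hne
  · rw [rev_D, e3]
    have h3 : Tendsto f (𝓝[Q.D] (Q.mark 0)) (𝓝[≠] 0) := by
      refine tendsto_nhdsWithin_iff.2 ⟨?_, ?_⟩
      · have h4 := (h.cont (Q.mark 0) ⟨frontier_subset_closure (mark_mem_frontier Q 0),
          mark_ne Q (by decide)⟩).mono (fun p hp => ⟨subset_closure hp, hD p hp⟩ :
            Q.D ⊆ closure Q.D \ {Q.mark 3})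
        rw [ContinuousWithinAt, h.at_a] at h4
        exact h4
      · filter_upwards [self_mem_nhdsWithin] with p hp
        exact hfD p hp
    have h4 : Tendsto (fun p => ‖(f p)⁻¹‖) (𝓝[Q.D] (Q.mark 0)) atTop :=
      tendsto_norm_cobounded_atTop.comp ((tendsto_inv₀_nhdsNE_zero (α := ℂ)).comp h3)
    have h5 : Tendsto (fun p => ‖(t : ℂ)‖ * ‖(f p)⁻¹‖) (𝓝[Q.D] (Q.mark 0)) atTop :=
      h4.const_mul_atTop (norm_pos_iff.2 hne)
    refine h5.congr' ?_
    filter_upwards [self_mem_nhdsWithin] with p hp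
    rw [if_neg (hD p hp), div_eq_mul_inv, norm_mul]

/-- **Every quad, or its reverse, has a uniformizer.** -/
theorem exists_uniformizer (Q : Quad) :
    (∃ φ x, Q.IsUniformizer φ x ∧ 0 < x ∧ x < 1) ∨
      ∃ φ x, (rev Q).IsUniformizer φ x ∧ 0 < x ∧ x < 1 := by
  obtain ⟨f, hf⟩ := exists_pre Q
  rcases hf.order with ⟨h1, h2⟩ | ⟨h1, h2⟩
  · exact Or.inl ⟨_, _, hf.pos (h1.trans h2), x_mem_Ioo (hf.pos (h1.trans h2))⟩
  · exact Or.inr ⟨_, _, hf.neg h1, x_mem_Ioo (hf.neg h1)⟩

end Vale.Agent.P148.R2.H847
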