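import Vale.Agent.P148.R2.H258.A8

/-!
# P148, module BV: the arms of a member of the class of the outer dart (free paths)
-/

namespace Vale.Agent.P148.R2.H847

open Vale.Agent.P148.R2.H258 Function

variable {V D : Type*} (T : Tri V D)

/-- Adjacency of vertices. -/
def Adj (v w : V) : Prop := ∃ d, T.src d = v ∧ T.tgt d = w

theorem Adj.symm {T : Tri V D} {v w : V} (h : Adj T v w) : Adj T w v := by
  obtain ⟨d, rfl, rfl⟩ := h
  exact ⟨T.rev d, T.src_rev d, T.tgt_rev d⟩

/-- The vertices which are not corners of the face of `o`. -/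
def Fr (o : D) : Set V := {v | v ≠ T.src o ∧ v ≠ T.tgt o ∧ v ≠ T.apex o}

/-- A step between two vertices of `F` of colour `c`. -/
def Stp (F : Set V) (σ : V → Bool) (c : Bool) (v w : V) : Prop :=
  Adj T v w ∧ v ∈ F ∧ w ∈ F ∧ σ v = c ∧ σ w = c

/-- `v = b`, or there is a path in `F` of colour `c` from `v` to a neighbour of `b`. -/
def Reach (F : Set V) (σ : V → Bool) (c : Bool) (v b : V) : Prop :=
  v = b ∨ v ∈ F ∧ σ v = c ∧ ∃ w, Relation.ReflTransGen (Stp T F σ c) v w ∧ Adj T w b

variable {T}

theorem Reach.head {F : Set V} {σ : V → Bool} {c : Bool} {v w b : V} (h : Reach T F σ c w b)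
    (ha : Adj T v w) (hv : v ∈ F) (hc : σ v = c) : Reach T F σ c v b := by
  rcases h with rfl | ⟨hw, hwc, u, hu, hub⟩
  · exact Or.inr ⟨hv, hc, v, Relation.ReflTransGen.refl, ha⟩
  · exact Or.inr ⟨hv, hc, u, Relation.ReflTransGen.head ⟨ha, hv, hw, hc, hwc⟩ hu, hub⟩

variable (T)

theorem adj_apex (d : D) : Adj T (T.src d) (T.apex d) :=
  ⟨T.rev (T.nxt (T.nxt d)), by rw [T.src_rev, T.tgt_nxt2], by rw [T.tgt_rev, T.src_nxt2]⟩

theorem mem_Fr_of_col {σ : V → Bool} {o : D} (h : T.Mi σ o) {v : V} (h1 : v ≠ T.src o)
    (h2 : v ≠ T.apex o) (hc : σ v = σ (T.src o)) : v ∈ Fr T o := by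
  refine ⟨h1, fun hh => ?_, h2⟩
  rw [hh] at hc
  exact h.1 hc.symm

/-- The majority arms of a member of the class. -/
theorem arm_maj [Finite D] (hP : T.Planar) {σ : V → Bool} {o g : D} (hr : T.Rel σ o g)
    (hg : T.apex o ≠ T.src o) (hgo : g ≠ o) :
    Reach T (Fr T o) σ (σ (T.src o)) (T.apex g) (T.src o) ∧
      Reach T (Fr T o) σ (σ (T.src o)) (T.src g) (T.apex o) := by
  have h := hr.1
  obtain ⟨m, f, hm, h0, hfm, hs, hinj, hrel, hnd⟩ := T.class_cycle hP h hg
  obtain ⟨i, hi, rfl⟩ := (hrel g).1 hr
  have hi0 : i ≠ 0 := by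
    rintro rfl
    exact hgo h0
  have hcol : ∀ k < m, σ (T.src (f k)) = σ (T.src o) := fun k hk =>
    (T.rel_col ((hrel _).2 ⟨k, hk, rfl⟩)).1
  have hs0 : T.src (f 1) = T.apex o := by
    have := hs 0 (by omega)
    rwa [zero_add, h0] at this
  -- free vertices
  have hfree : ∀ k, 2 ≤ k → k < m → T.src (f k) ∈ Fr T o := by
    intro k hk hkm
    refine mem_Fr_of_col T h (fun hh => ?_) (fun hh => ?_) (hcol k hkm)
    · have := hinj k hkm 0 (by omega) (by rw [hh, h0])
      omega
    · have := hinj k hkm 1 (by omega) (by rw [hh, hs0])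
      omega
  have hadj : ∀ k < m, Adj T (T.src (f k)) (T.src (f (k + 1))) := by
    intro k hk
    rw [hs k hk]
    exact adj_apex T (f k)
  constructor
  · rw [← hs i hi]
    -- downward induction
    have key : ∀ n, n + 2 ≤ m → Reach T (Fr T o) σ (σ (T.src o)) (T.src (f (m - n))) (T.src o) := by
      intro n
      induction n with
      | zero => intro _; exact Or.inl (by rw [Nat.sub_zero, hfm])
      | succ n ih =>
        intro hn
        have h1 := ih (by omega)
        have e1 : m - n = (m - (n + 1)) + 1 := by omega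
        rw [e1] at h1
        exact h1.head (hadj _ (by omega)) (hfree _ (by omega) (by omega)) (hcol _ (by omega))
    have := key (m - (i + 1)) (by omega)
    have e2 : m - (m - (i + 1)) = i + 1 := by omega
    rwa [e2] at this
  · have key : ∀ k, 1 ≤ k → k < m → Reach T (Fr T o) σ (σ (T.src o)) (T.src (f k)) (T.apex o) := by
      intro k hk
      induction k with
      | zero => omega
      | succ k ih =>
        intro hkm
        rcases Nat.eq_zero_or_pos k with h1 | h1
        · subst h1
          exact Or.inl hs0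
        · exact (ih h1 (by omega)).head (hadj k (by omega)).symm (hfree _ (by omega) hkm)
            (hcol _ hkm)
    exact key i (by omega) hi

/-- The minority arm of a member of the class. -/
theorem arm_min {σ : V → Bool} {o g : D} (hr : T.Rel σ o g) :
    Reach T (Fr T o) σ (σ (T.tgt o)) (T.tgt g) (T.tgt o) := by
  have h := hr.1
  obtain ⟨l, hw, hc⟩ := T.arm_tgt hr
  -- first visit, on the reversed walk: induction on the walk from the other end
  have key : ∀ {u v : V} {l : List D}, T.Walk u v l → u = T.tgt o →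
      (∀ e ∈ l, σ (T.src e) = σ (T.tgt o) ∧ σ (T.tgt e) = σ (T.tgt o)) →
      Reach T (Fr T o) σ (σ (T.tgt o)) v (T.tgt o) := by
    intro u v l hl
    clear hw hc
    -- use a snoc induction through lists
    have gen : ∀ n : ℕ, ∀ (u v : V) (l : List D), l.length = n → T.Walk u v l → u = T.tgt o →
        (∀ e ∈ l, σ (T.src e) = σ (T.tgt o) ∧ σ (T.tgt e) = σ (T.tgt o)) →
        Reach T (Fr T o) σ (σ (T.tgt o)) v (T.tgt o) := by
      intro n
      induction n with
      | zero =>
        intro u v l hn hl hu _
        rw [List.length_eq_zero_iff] at hn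
        subst hn
        cases hl
        exact Or.inl hu
      | succ n ih =>
        intro u v l hn hl hu hcl
        have hne : l ≠ [] := by
          intro hh; rw [hh] at hn; simp at hn
        -- split off the last dart
        have hsp : ∀ {u v : V} {l : List D}, T.Walk u v l → l ≠ [] →
            ∃ (d : D) (l' : List D), l = l' ++ [d] ∧ T.Walk u (T.src d) l' ∧ T.tgt d = v := by
          intro u v l hl
          induction hl with
          | nil v => intro h1; exact absurd rfl h1
          | cons d w l hw ih =>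
            intro _
            by_cases h2 : l = []
            · subst h2
              have h7 : T.tgt d = w := by
                rcases hw.casesOn' with ⟨-, h7⟩ | ⟨e, l', h7, -⟩
                · exact h7
                · exact absurd h7 (by simp)
              exact ⟨d, [], rfl, Tri.Walk.nil _, h7⟩
            · obtain ⟨d', l', e1, e2, e3⟩ := ih h2
              exact ⟨d', d :: l', by rw [e1]; rfl, Tri.Walk.cons d _ l' e2, e3⟩
        obtain ⟨d, l', e1, e2, e3⟩ := hsp hl hne
        subst e1
        have h3 := ih u (T.src d) l' (by simpa using hn) e2 hu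
          (fun e he => hcl e (by simp [he]))
        have h4 := hcl d (by simp)
        by_cases h5 : T.tgt d = T.tgt o
        · exact Or.inl (by rw [← e3, h5])
        · rw [← e3]
          refine h3.head (Adj.symm ⟨d, rfl, rfl⟩) ⟨fun hh => ?_, h5, fun hh => ?_⟩ h4.2
          · have := h4.2
            rw [hh] at this
            exact h.1 this
          · have := h4.2
            rw [hh, h.2] at this
            exact h.1 this
    exact fun hu hcl => gen _ u v l rfl hl hu hcl
  exact key hw rfl hc

/-- Steps between darts: inside a face (with the property `P`), or reversal. -/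
def DStep (P : D → Prop) (a b : D) : Prop :=
  (P a ∧ T.src a ≠ T.tgt a ∧ T.src b ≠ T.tgt b ∧ (b = T.nxt a ∨ b = T.nxt (T.nxt a))) ∨ b = T.rev a

/-- If `NK` changes along a chain of darts then one of the faces has a member of the class. -/
theorem member_of_chain [Finite D] (hP : T.Planar) {σ : V → Bool} {o : D} (h : T.Mi σ o)
    (hg : T.apex o ≠ T.src o) {P : D → Prop} {a b : D} (hab : Relation.ReflTransGen (DStep T P) a b)
    (hne : T.NK σ o a ≠ T.NK σ o b) :
    ∃ e g, P e ∧ (g = e ∨ g = T.nxt e ∨ g = T.nxt (T.nxt e)) ∧ T.Rel σ o g := by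
  by_contra hc
  push Not at hc
  apply hne
  induction hab with
  | refl => rfl
  | tail _ hbc ih =>
    rename_i b c _
    by_cases hh : T.NK σ o a ≠ T.NK σ o b
    · exact absurd (ih hh) hh
    push Not at hh
    rw [hh]
    rcases hbc with ⟨hPb, h1, h2, h3⟩ | h3
    · by_contra hne'
      obtain ⟨g, hg1, hg2⟩ := T.member_of_NK_ne hP h hg (Or.inr h3) h1 h2 hne'
      exact hc b g hPb hg1 hg2
    · rw [h3, T.NK_rev]

end Vale.Agent.P148.R2.H847
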