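import Vale.Agent.P148.R2.H592.Contr
import Vale.Agent.P148.R2.H847.Arm

/-!
# P148, module BV: when `NK` changes near a point there is a free monochromatic arm
-/

open Set Metric

namespace Vale.Agent.P148.R2.H847

open Vale.Agent.P148.R2.H592 Vale.Agent.P148.R2

theorem z3_three : ∀ a j e k : ZMod 3, a ≠ j → e ≠ j → e ≠ a → k = a ∨ k = j ∨ k = e := by
  decide

theorem z3_four (i j k m : ZMod 3) (h1 : i ≠ j) (h2 : k ≠ j) (h3 : k ≠ i) (h4 : m ≠ i) (h5 : m ≠ j)
    (h6 : m ≠ k) : False := by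
  rcases z3_three i j k m h1 h2 h3 with h | h | h
  · exact h4 h
  · exact h5 h
  · exact h6 h

/-- A step of a free path of colour `c`. -/
def FStp (X G : Set ℂ) (col : ℂ → Bool) (c : Bool) (x y : ℂ) : Prop :=
  nbr X x y ∧ x ∈ G ∧ y ∈ G ∧ col x = c ∧ col y = c

/-- A free path of colour `c` from a vertex of `A` to a neighbour of a vertex of `B`. -/
def FArm (X G : Set ℂ) (col : ℂ → Bool) (c : Bool) (A B : Set ℂ) : Prop :=
  ∃ x ∈ A, x ∈ G ∧ col x = c ∧ ∃ z, Relation.ReflTransGen (FStp X G col c) x z ∧ ∃ y ∈ B, nbr X z y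

theorem FArm.mono {X G G' : Set ℂ} {col : ℂ → Bool} {c : Bool} {A A' B B' : Set ℂ}
    (h : FArm X G col c A B) (hG : G ⊆ G') (hA : A ⊆ A') (hB : B ⊆ B') :
    FArm X G' col c A' B' := by
  obtain ⟨x, hx, hxG, hxc, z, hz, y, hy, hzy⟩ := h
  exact ⟨x, hA hx, hG hxG, hxc, z,
    Relation.ReflTransGen.mono (fun a b (h : FStp X G col c a b) => ⟨h.1, hG h.2.1, hG h.2.2.1,
      h.2.2.2⟩) _ _ hz, y, hB hy, hzy⟩

theorem FArm.congr {X G : Set ℂ} {col col' : ℂ → Bool} {c : Bool} {A B : Set ℂ}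
    (h : FArm X G col c A B) (hcol : ∀ x ∈ G, col x = col' x) : FArm X G col' c A B := by
  obtain ⟨x, hx, hxG, hxc, z, hz, y, hy, hzy⟩ := h
  exact ⟨x, hx, hxG, by rw [← hcol x hxG, hxc], z,
    Relation.ReflTransGen.mono (fun a b (h : FStp X G col c a b) => ⟨h.1, h.2.1, h.2.2.1,
      by rw [← hcol a h.2.1, h.2.2.2.1], by rw [← hcol b h.2.2.1, h.2.2.2.2]⟩) _ _ hz, y, hy, hzy⟩

/-- The set `W` with its neighbours. -/
def Nb (X W : Set ℂ) : Set ℂ := {x | x ∈ W ∨ ∃ w ∈ W, nbr X w x}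

variable {X : Set ℂ} {b : ZMod 3 → ℂ} (h : HullTri X b) {O : ZMod 3 → Set ℂ}
  (hf : Fib X (cmap X O))

/-- The free points. -/
def Gf (X : Set ℂ) (O : ZMod 3 → Set ℂ) : Set ℂ := {x | x ∈ X ∧ ∀ j, x ∉ O j}

/-- The contracted triangulation. -/
noncomputable abbrev TD : H258.Tri (CV X O) (Fc X b × ZMod 3) := h.tri258 (cmap X O) hf

/-- The colouring of the points. -/
noncomputable def colOf (σ : CV X O → Bool) (x : ℂ) : Bool := σ (cmap X O x)

theorem src_TD (q : Fc X b × ZMod 3) : (TD h hf).src q = cmap X O (tail q) := rfl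

theorem tgt_TD (q : Fc X b × ZMod 3) : (TD h hf).tgt q = cmap X O (head q) := by
  show cmap X O (tail (h.rv q)) = _
  rw [h.tail_rv]

theorem nxt_TD (q : Fc X b × ZMod 3) : (TD h hf).nxt q = (q.1, q.2 + 1) := rfl

theorem nxt2_TD (q : Fc X b × ZMod 3) : (TD h hf).nxt ((TD h hf).nxt q) = (q.1, q.2 + 2) := by
  show ((q.1, q.2 + 1 + 1) : Fc X b × ZMod 3) = _
  rw [z3_11]

theorem apex_TD (q : Fc X b × ZMod 3) : (TD h hf).apex q = cmap X O (vc q.1 q.2) := by
  unfold H258.Tri.apex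
  rw [nxt2_TD, src_TD, HullTri.tail_next2]

theorem cmap_ne_of_nbr {x y : ℂ} (hx : x ∈ Gf X O) (hxy : nbr X x y) :
    cmap X O x ≠ cmap X O y := by
  rw [cmap_of_free hx.1 hx.2]
  intro hh
  have := eq_of_cmap hh.symm
  exact hxy.2.2.1 this.symm

/-- `Reach` in the contracted triangulation gives a free arm. -/
theorem farm_of_reach {F : Set (CV X O)} (hF : ∀ j, Sum.inl j ∉ F) {σ : CV X O → Bool} {c : Bool}
    {x : ℂ} (hx : x ∈ X) {k : ZMod 3} (hr : Reach (TD h hf) F σ c (cmap X O x) (Sum.inl k)) :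
    x ∈ O k ∨ FArm X (Gf X O) (colOf σ) c {x} (O k) := by
  have hfree : ∀ v ∈ F, ∃ y : Free X O, v = Sum.inr y := by
    intro v hv
    cases v with
    | inl j => exact absurd hv (hF j)
    | inr y => exact ⟨y, rfl⟩
  have hadj : ∀ y z : Free X O, Adj (TD h hf) (Sum.inr y) (Sum.inr z) → nbr X y.1 z.1 := by
    rintro y z ⟨q, hq1, hq2⟩
    rw [src_TD] at hq1
    rw [tgt_TD] at hq2
    rw [← eq_of_cmap hq1, ← eq_of_cmap hq2]
    exact h.nbr_th q
  have hadj' : ∀ (y : Free X O), Adj (TD h hf) (Sum.inr y) (Sum.inl k) → ∃ u ∈ O k, nbr X y.1 u := by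
    rintro y ⟨q, hq1, hq2⟩
    rw [src_TD] at hq1
    rw [tgt_TD] at hq2
    refine ⟨head q, mem_of_cmap (h.nbr_th q).2.1 hq2, ?_⟩
    rw [← eq_of_cmap hq1]
    exact h.nbr_th q
  have hcm : ∀ y : Free X O, colOf σ y.1 = σ (Sum.inr y) := by
    intro y
    unfold colOf
    rw [cmap_free]
  rcases hr with hr | ⟨hv, hvc, w, hw, hwb⟩
  · exact Or.inl (mem_of_cmap hx hr)
  · right
    obtain ⟨y, hy⟩ := hfree _ hv
    have hxy : x = y.1 := eq_of_cmap hy
    obtain ⟨z, rfl⟩ : ∃ z : Free X O, w = Sum.inr z := by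
      rcases Relation.ReflTransGen.cases_tail hw with h1 | ⟨u, -, h1⟩
      · exact ⟨y, by rw [h1, hy]⟩
      · exact hfree _ h1.2.2.1
    rw [hy] at hw hvc
    refine ⟨x, rfl, by rw [hxy]; exact y.2, by rw [hxy, hcm]; exact hvc, z.1, ?_, ?_⟩
    · rw [hxy]
      clear hwb hxy hvc hy
      have key : ∀ v, Relation.ReflTransGen (Stp (TD h hf) F σ c) (Sum.inr y) v →
          ∀ z : Free X O, v = Sum.inr z →
          Relation.ReflTransGen (FStp X (Gf X O) (colOf σ) c) y.1 z.1 := by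
        intro v hv
        induction hv with
        | refl => intro z hz; rw [Sum.inr_injective hz]
        | tail _ hbc ih =>
          intro z hz
          obtain ⟨u, hu⟩ := hfree _ hbc.2.1
          subst hu hz
          refine (ih u rfl).tail ⟨hadj u z hbc.1, u.2, z.2, ?_, ?_⟩
          · rw [hcm]; exact hbc.2.2.2.1
          · rw [hcm]; exact hbc.2.2.2.2
      exact key _ hw z rfl
    · obtain ⟨u, hu, hzu⟩ := hadj' z hwb
      exact ⟨u, hu, hzu⟩

/-- The outer dart: its corners are the three classes, `j` is opposite to the majority edge. -/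
structure OutD (o : Fc X b × ZMod 3) (j : ZMod 3) : Prop where
  tgt : (TD h hf).tgt o = Sum.inl j
  src : ∃ i, i ≠ j ∧ (TD h hf).src o = Sum.inl i ∧ ∃ k, k ≠ j ∧ k ≠ i ∧
    (TD h hf).apex o = Sum.inl k

variable {h hf}

theorem OutD.good {o : Fc X b × ZMod 3} {j : ZMod 3} (ho : OutD h hf o j) : (TD h hf).Good o := by
  obtain ⟨h1, i, hi, h2, k, hk, hki, h3⟩ := ho
  refine ⟨?_, ?_, ?_⟩
  · rw [h1, h2]; exact fun hh => hi (Sum.inl_injective hh)
  · rw [h1, h3]; exact fun hh => hk (Sum.inl_injective hh).symm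
  · rw [h2, h3]; exact fun hh => hki (Sum.inl_injective hh)

theorem OutD.fr {o : Fc X b × ZMod 3} {j : ZMod 3} (ho : OutD h hf o j) (m : ZMod 3) :
    (Sum.inl m : CV X O) ∉ Fr (TD h hf) o := by
  obtain ⟨h1, i, hi, h2, k, hk, hki, h3⟩ := ho
  rintro ⟨h4, h5, h6⟩
  rw [h2] at h4
  rw [h1] at h5
  rw [h3] at h6
  exact z3_four i j k m hi hk hki (fun hh => h4 (by rw [hh])) (fun hh => h5 (by rw [hh]))
    (fun hh => h6 (by rw [hh]))

variable (h hf)

section

variable {σ : CV X O → Bool} {o : Fc X b × ZMod 3} {j : ZMod 3}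

/-- `NK` is constant around a free vertex which is not a corner of a member of the class. -/
theorem NK_around (hm : (TD h hf).Mi σ o) (hg : (TD h hf).apex o ≠ (TD h hf).src o) {x : ℂ}
    (hx : x ∈ Gf X O) (hno : ∀ g, (TD h hf).Rel σ o g → ∀ i, vc g.1 i ≠ x)
    {q r : Fc X b × ZMod 3} (hq : tail q = x) (hr : tail r = x) :
    (TD h hf).NK σ o q = (TD h hf).NK σ o r := by
  have := h.finite_Fc
  have hP : (TD h hf).Planar := h.planar258 (cmap X O) hf
  have step : ∀ f : Fc X b × ZMod 3, tail f = x →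
      (TD h hf).NK σ o f = (TD h hf).NK σ o (h.rv (f.1, f.2 + 2)) := by
    intro f hfx
    have e1 : (TD h hf).NK σ o (h.rv (f.1, f.2 + 2)) = (TD h hf).NK σ o (f.1, f.2 + 2) :=
      (TD h hf).NK_rev σ o _
    rw [e1]
    by_contra hne
    have n1 : (TD h hf).src f ≠ (TD h hf).tgt f := by
      rw [src_TD, tgt_TD]
      exact cmap_ne_of_nbr (by rw [hfx]; exact hx) (h.nbr_th f)
    have n2 : (TD h hf).src (f.1, f.2 + 2) ≠ (TD h hf).tgt (f.1, f.2 + 2) := by
      rw [src_TD, tgt_TD]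
      refine (cmap_ne_of_nbr ?_ (nbr_symm (h.nbr_th (f.1, f.2 + 2)))).symm
      rw [HullTri.head_next2, hfx]
      exact hx
    obtain ⟨g, hg1, hg2⟩ := (TD h hf).member_of_NK_ne hP hm hg
      (e := f) (f := (f.1, f.2 + 2)) (Or.inr (Or.inr (by rw [nxt2_TD]))) n1 n2 hne
    have hface : g.1 = f.1 := by
      rcases hg1 with rfl | rfl | rfl
      · rfl
      · rfl
      · rfl
    refine hno g hg2 (f.2 + 1) ?_
    rw [hface]
    exact hfx
  have key : ∀ f g : Fc X b × ZMod 3, Relation.EqvGen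
      (fun f g : Fc X b × ZMod 3 => g = h.rv (f.1, f.2 + 2)) f g →
      tail f = tail g ∧ (tail f = x → (TD h hf).NK σ o f = (TD h hf).NK σ o g) := by
    intro f g hfg
    induction hfg with
    | rel f g hh =>
      subst hh
      exact ⟨by rw [h.tail_rv, HullTri.head_next2], step f⟩
    | refl f => exact ⟨rfl, fun _ => rfl⟩
    | symm f g _ ih => exact ⟨ih.1.symm, fun hx' => (ih.2 (by rw [ih.1, hx'])).symm⟩
    | trans f g k _ _ ih1 ih2 =>
      exact ⟨ih1.1.trans ih2.1, fun hx' => (ih1.2 hx').trans (ih2.2 (by rw [← ih1.1, hx']))⟩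
  have hn : nbr X x (head q) := by rw [← hq]; exact h.nbr_th q
  have hn' : nbr X x (head r) := by rw [← hr]; exact h.nbr_th r
  have e1 : h.dart hn = q := h.th_inj (by rw [h.tail_dart, hq]) (h.head_dart _)
  have e2 : h.dart hn' = r := h.th_inj (by rw [h.tail_dart, hr]) (h.head_dart _)
  have := key _ _ (h.eqv_rot hn hn')
  rw [e1, e2] at this
  exact this.2 hq

/-- `NK` is constant along a chain of free vertices which are not corners of members. -/
theorem NK_chain (hm : (TD h hf).Mi σ o) (hg : (TD h hf).apex o ≠ (TD h hf).src o) {W : Set ℂ}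
    (hW : W ⊆ Gf X O) (hno : ∀ g, (TD h hf).Rel σ o g → ∀ i, vc g.1 i ∉ W)
    {x y : ℂ} (hx : x ∈ W)
    (hxy : Relation.ReflTransGen (fun a b => nbr X a b ∧ a ∈ W ∧ b ∈ W) x y)
    {q r : Fc X b × ZMod 3} (hq : tail q = x) (hr : tail r = y) :
    (TD h hf).NK σ o q = (TD h hf).NK σ o r := by
  induction hxy generalizing r with
  | refl =>
    exact NK_around h hf hm hg (hW hx) (fun g h1 i h2 => hno g h1 i (by rw [h2]; exact hx)) hq hr
  | tail _ hbc ih =>
    rename_i u v _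
    have h1 := ih (h.tail_dart hbc.1)
    rw [h1]
    have e1 : (TD h hf).NK σ o (h.dart hbc.1) = (TD h hf).NK σ o (h.rv (h.dart hbc.1)) :=
      ((TD h hf).NK_rev σ o _).symm
    rw [e1]
    exact NK_around h hf hm hg (hW hbc.2.2) (fun g h1 i h2 => hno g h1 i (by rw [h2]; exact hbc.2.2))
      (by rw [h.tail_rv, h.head_dart]) hr

/-- The arms of a member of the class with a corner in `W`. -/
theorem arms_of_member (ho : OutD h hf o j) {W : Set ℂ} {g : Fc X b × ZMod 3}
    (hr : (TD h hf).Rel σ o g) {i : ZMod 3} (hi : vc g.1 i ∈ W) {k : ZMod 3}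
    (hk : ∀ x ∈ Nb X W, x ∉ O k) : ∃ c, FArm X (Gf X O) (colOf σ) c (Nb X W) (O k) := by
  have := h.finite_Fc
  have hP : (TD h hf).Planar := h.planar258 (cmap X O) hf
  -- all the corners of the face are in `Nb X W`
  have hnb : ∀ m, vc g.1 m ∈ Nb X W := by
    intro m
    by_cases hmi : m = i
    · rw [hmi]; exact Or.inl hi
    · right
      refine ⟨vc g.1 i, hi, ?_⟩
      rcases z3_of_ne i m (Ne.symm hmi) with h1 | h1
      · -- the dart with tail `i` and head `i + 1`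
        have h2 := h.nbr_th (g.1, i + 2)
        have e1 : tail ((g.1, i + 2) : Fc X b × ZMod 3) = vc g.1 i := by
          show vc g.1 (i + 2 + 1) = _
          rw [z3_21]
        have e2 : head ((g.1, i + 2) : Fc X b × ZMod 3) = vc g.1 (i + 1) := by
          show vc g.1 (i + 2 + 2) = _
          rw [z3_22]
        rw [e1, e2] at h2
        rw [h1]; exact h2
      · have h2 := h.nbr_th (g.1, i + 1)
        have e1 : tail ((g.1, i + 1) : Fc X b × ZMod 3) = vc g.1 (i + 2) := by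
          show vc g.1 (i + 1 + 1) = _
          rw [z3_11]
        have e2 : head ((g.1, i + 1) : Fc X b × ZMod 3) = vc g.1 i := by
          show vc g.1 (i + 1 + 2) = _
          rw [z3_12]
        rw [e1, e2] at h2
        rw [h1]; exact nbr_symm h2
  have hX : ∀ m, vc g.1 m ∈ X := fun m => by
    have h2 := (h.nbr_th (g.1, m + 2)).1
    have e1 : tail ((g.1, m + 2) : Fc X b × ZMod 3) = vc g.1 m := by
      show vc g.1 (m + 2 + 1) = _
      rw [z3_21]
    rwa [e1] at h2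
  have fin : ∀ (m : ZMod 3) (c : Bool), Reach (TD h hf) (Fr (TD h hf) o) σ c (cmap X O (vc g.1 m))
      (Sum.inl k) → ∃ c, FArm X (Gf X O) (colOf σ) c (Nb X W) (O k) := by
    intro m c hR
    rcases farm_of_reach h hf ho.fr (hX m) hR with h1 | h1
    · exact absurd h1 (hk _ (hnb m))
    · exact ⟨c, h1.mono subset_rfl (singleton_subset_iff.2 (hnb m)) subset_rfl⟩
  by_cases hgo : g = o
  · -- the outer dart itself: its corners are in the classes
    exfalso
    subst hgo
    obtain ⟨h1, a, ha, h2, e, he, hea, h3⟩ := ho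
    rcases z3_three a j e k ha he hea with h4 | h4 | h4
    · rw [src_TD] at h2
      exact hk _ (hnb (g.2 + 1)) (by rw [h4]; exact mem_of_cmap (hX _) h2)
    · rw [tgt_TD] at h1
      exact hk _ (hnb (g.2 + 2)) (by rw [h4]; exact mem_of_cmap (hX _) h1)
    · rw [apex_TD] at h3
      exact hk _ (hnb g.2) (by rw [h4]; exact mem_of_cmap (hX _) h3)
  · have hgood := ho.good
    obtain ⟨hA, hB⟩ := arm_maj (TD h hf) hP hr hgood.2.2 hgo
    have hC := arm_min (TD h hf) hr
    obtain ⟨h1, a, ha, h2, e, he, hea, h3⟩ := ho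
    rcases z3_three a j e k ha he hea with h4 | h4 | h4
    · refine fin g.2 (σ ((TD h hf).src o)) ?_
      have h5 := hA
      rw [apex_TD] at h5
      rw [h4, ← h2]
      exact h5
    · refine fin (g.2 + 2) (σ ((TD h hf).tgt o)) ?_
      have h5 := hC
      rw [tgt_TD h hf g] at h5
      rw [h4, ← h1]
      exact h5
    · refine fin (g.2 + 1) (σ ((TD h hf).src o)) ?_
      have h5 := hB
      rw [src_TD h hf g] at h5
      rw [h4, ← h3]
      exact h5

/-- **Equicontinuity, deterministic form.** -/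
theorem farm_of_NK_ne (ho : OutD h hf o j) (hm : (TD h hf).Mi σ o) {W : Set ℂ}
    (hW : W ⊆ Gf X O) {x y : ℂ} (hx : x ∈ W)
    (hxy : Relation.ReflTransGen (fun a b => nbr X a b ∧ a ∈ W ∧ b ∈ W) x y)
    {q r : Fc X b × ZMod 3} (hq : tail q = x) (hr : tail r = y)
    (hne : (TD h hf).NK σ o q ≠ (TD h hf).NK σ o r) {k : ZMod 3}
    (hk : ∀ x ∈ Nb X W, x ∉ O k) : ∃ c, FArm X (Gf X O) (colOf σ) c (Nb X W) (O k) := by
  by_contra hc
  apply hne
  refine NK_chain h hf hm ho.good.2.2 hW (fun g hg i hi => ?_) hx hxy hq hr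
  exact hc (arms_of_member h hf ho hg hi hk)

/-- **Boundary values, deterministic form.** -/
theorem farm_of_NK_ne_zero (ho : OutD h hf o j) (hm : (TD h hf).Mi σ o) {W : Set ℂ}
    (hW : W ⊆ Gf X O) {x y : ℂ} (hx : x ∈ W)
    (hxy : Relation.ReflTransGen (fun a b => nbr X a b ∧ a ∈ W ∧ b ∈ W) x y)
    {u : ℂ} (hu : u ∈ O j) (hyu : nbr X y u)
    {q : Fc X b × ZMod 3} (hq : tail q = x)
    (hne : (TD h hf).NK σ o q ≠ 0) {k : ZMod 3}
    (hk : ∀ x ∈ Nb X W, x ∉ O k) (hd : Pairwise fun i j => Disjoint (O i) (O j)) :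
    ∃ c, FArm X (Gf X O) (colOf σ) c (Nb X W) (O k) := by
  have := h.finite_Fc
  have hP : (TD h hf).Planar := h.planar258 (cmap X O) hf
  refine farm_of_NK_ne h hf ho hm hW hx hxy hq (h.tail_dart hyu) ?_ hk
  have h1 : (TD h hf).NK σ o (h.dart hyu) = 0 := by
    have e1 : (TD h hf).NK σ o (h.dart hyu) = (TD h hf).NK σ o (h.rv (h.dart hyu)) :=
      ((TD h hf).NK_rev σ o _).symm
    rw [e1]
    refine (TD h hf).NK_minority hP hm ho.good.2.2 ?_
    rw [src_TD, h.tail_rv, h.head_dart, ho.tgt]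
    exact cmap_of_mem hd hu
  rw [h1]
  exact hne

end

end Vale.Agent.P148.R2.H847
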