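import Mathlib

/-!
# P148: the filter of with probability tending to one

For a family of probability spaces `(Ω i, P i)` and a filter `l` on the indices, `prF P l` is the
filter on the pairs `⟨i, ω⟩` such that `∀ᶠ p in prF P l, q p` means: the (outer) probability of
`{ω | ¬ q ⟨i, ω⟩}` tends to `0` along `l`. No measurability is needed. Applying a limit theorem that
holds for an arbitrary filter (e.g. `three_arc_limit`) to `prF P l` gives its version in probability.
-/

open MeasureTheory Set Filter Topology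
open scoped ENNReal NNReal

namespace Vale.Agent.P148.R2.H847

variable {ι : Type*} {Ω : ι → Type*} [∀ i, MeasurableSpace (Ω i)]

/-- The filter of the sets of pairs which have probability tending to one along `l`. -/
def prF (P : ∀ i, Measure (Ω i)) (l : Filter ι) : Filter (Σ i, Ω i) where
  sets := {E | Tendsto (fun i => P i {ω | (⟨i, ω⟩ : Σ i, Ω i) ∉ E}) l (𝓝 0)}
  univ_sets := by
    simp only [mem_ofPred_eq, mem_univ, not_true_eq_false]
    have : ∀ i, P i {ω : Ω i | False} = 0 := fun i => by simp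
    simp only [this]
    exact tendsto_const_nhds
  sets_of_superset := by
    intro E F hE hEF
    refine tendsto_of_tendsto_of_tendsto_of_le_of_le tendsto_const_nhds hE (fun i => bot_le) ?_
    intro i
    exact measure_mono fun ω hω hE' => hω (hEF hE')
  inter_sets := by
    intro E F hE hF
    have h1 : Tendsto (fun i => P i {ω | (⟨i, ω⟩ : Σ i, Ω i) ∉ E} +
        P i {ω | (⟨i, ω⟩ : Σ i, Ω i) ∉ F}) l (𝓝 0) := by
      simpa using hE.add hF
    refine tendsto_of_tendsto_of_tendsto_of_le_of_le tendsto_const_nhds h1 (fun i => bot_le) ?_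
    intro i
    refine (measure_mono ?_).trans (measure_union_le _ _)
    intro ω hω
    by_contra hcon
    simp only [mem_union, mem_ofPred_eq, not_or, not_not] at hcon
    exact hω hcon

variable {P : ∀ i, Measure (Ω i)} {l : Filter ι}

theorem eventually_prF {q : (Σ i, Ω i) → Prop} :
    (∀ᶠ p in prF P l, q p) ↔ Tendsto (fun i => P i {ω | ¬ q ⟨i, ω⟩}) l (𝓝 0) := Iff.rfl

theorem eventually_prF_iff {q : (Σ i, Ω i) → Prop} :
    (∀ᶠ p in prF P l, q p) ↔ ∀ η : ℝ≥0∞, 0 < η → ∀ᶠ i in l, P i {ω | ¬ q ⟨i, ω⟩} ≤ η := by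
  rw [eventually_prF, ENNReal.tendsto_nhds_zero]

/-- A bound of the probability of the complement by events whose probability tends to zero. -/
theorem eventually_prF_of_le {q : (Σ i, Ω i) → Prop} {b : ι → ℝ≥0∞}
    (hb : Tendsto b l (𝓝 0)) (h : ∀ᶠ i in l, P i {ω | ¬ q ⟨i, ω⟩} ≤ b i) : ∀ᶠ p in prF P l, q p :=
  tendsto_of_tendsto_of_tendsto_of_le_of_le' tendsto_const_nhds hb
    (Eventually.of_forall fun _ => bot_le) h

/-- Deterministic statements. -/
theorem eventually_prF_of_forall {q : (Σ i, Ω i) → Prop} (h : ∀ᶠ i in l, ∀ ω, q ⟨i, ω⟩) :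
    ∀ᶠ p in prF P l, q p := by
  refine eventually_prF_of_le tendsto_const_nhds ?_
  filter_upwards [h] with i hi
  have : {ω | ¬ q ⟨i, ω⟩} = ∅ := by
    ext ω
    simp [hi ω]
  rw [this, measure_empty]

/-- Almost sure statements. -/
theorem eventually_prF_of_ae {q : (Σ i, Ω i) → Prop} (h : ∀ᶠ i in l, ∀ᵐ ω ∂P i, q ⟨i, ω⟩) :
    ∀ᶠ p in prF P l, q p := by
  refine eventually_prF_of_le tendsto_const_nhds ?_
  filter_upwards [h] with i hi
  exact (ae_iff.1 hi).le

/-- The first coordinate. -/
theorem tendsto_fst_prF : Tendsto (fun p : Σ i, Ω i => p.1) (prF P l) l := by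
  intro E hE
  exact eventually_prF_of_forall (q := fun p => p.1 ∈ E) (by filter_upwards [hE] with i hi ω using hi)

/-- Markov's inequality. -/
theorem eventually_prF_of_lintegral {f : ∀ i, Ω i → ℝ≥0∞} (hf : ∀ i, AEMeasurable (f i) (P i))
    (h : Tendsto (fun i => ∫⁻ ω, f i ω ∂P i) l (𝓝 0)) {η : ℝ≥0∞} (hη : 0 < η) :
    ∀ᶠ p in prF P l, f p.1 p.2 < η := by
  rcases eq_or_ne η ⊤ with rfl | hη'
  · -- reduce to a finite level
    have h1 : ∀ᶠ i in l, ∫⁻ ω, f i ω ∂P i < 1 := h.eventually_lt_const one_pos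
    refine eventually_prF_of_ae ?_
    filter_upwards [h1] with i hi
    exact ae_lt_top' (hf i) (hi.trans ENNReal.one_lt_top).ne
  · refine eventually_prF_of_le (b := fun i => (∫⁻ ω, f i ω ∂P i) / η) ?_ ?_
    · have := ENNReal.Tendsto.div_const h (Or.inr hη.ne')
      rwa [ENNReal.zero_div] at this
    · refine Eventually.of_forall fun i => ?_
      simp only [not_lt]
      exact meas_ge_le_lintegral_div (hf i) hη.ne' hη'

/-- Markov's inequality, with a two parameter bound: if for every `η` the bound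
`∫ f ≤ η ^ 2` holds eventually then `f ≤ η` with probability at least `1 - η`. -/
theorem measure_le_of_lintegral {i : ι} {f : Ω i → ℝ≥0∞} (hf : AEMeasurable f (P i)) {a b : ℝ≥0∞}
    (ha : a ≠ 0) (ha' : a ≠ ⊤) (h : ∫⁻ ω, f ω ∂P i ≤ a * b) : P i {ω | ¬ f ω < a} ≤ b := by
  simp only [not_lt]
  refine (meas_ge_le_lintegral_div hf ha ha').trans ?_
  rw [ENNReal.div_le_iff ha ha', mul_comm]
  exact h

/-- From closeness in probability to closeness of the expectations: bounded functions. -/
theorem tendsto_lintegral_of_prF {f : ∀ i, Ω i → ℝ≥0∞}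
    (hP : ∀ i, IsProbabilityMeasure (P i)) (h1 : ∀ i ω, f i ω ≤ 1)
    (h : ∀ η : ℝ≥0∞, 0 < η → ∀ᶠ p in prF P l, f p.1 p.2 ≤ η) :
    Tendsto (fun i => ∫⁻ ω, f i ω ∂P i) l (𝓝 0) := by
  rw [ENNReal.tendsto_nhds_zero]
  intro η hη
  have hη2 : 0 < η / 2 := ENNReal.half_pos hη.ne'
  have h2 := eventually_prF_iff.1 (h (η / 2) hη2) (η / 2) hη2
  filter_upwards [h2] with i hi
  simp only [not_le] at hi
  have := hP i
  calc ∫⁻ ω, f i ω ∂P i ≤ ∫⁻ ω, (η / 2 + {ω | η / 2 < f i ω}.indicator 1 ω) ∂P i := by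
        refine lintegral_mono fun ω => ?_
        by_cases hω : η / 2 < f i ω
        · rw [indicator_of_mem (show ω ∈ {ω | η / 2 < f i ω} from hω)]
          exact (h1 i ω).trans le_add_self
        · exact (not_lt.1 hω).trans le_self_add
    _ ≤ η / 2 + P i {ω | η / 2 < f i ω} := by
        rw [lintegral_add_left measurable_const, lintegral_const, measure_univ, mul_one]
        gcongr
        have := lintegral_indicator_const_le (μ := P i) {ω | η / 2 < f i ω} 1
        rw [one_mul] at this
        exact this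
    _ ≤ η / 2 + η / 2 := by gcongr
    _ = η := ENNReal.add_halves η

end Vale.Agent.P148.R2.H847
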